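import Vale.Agent.P063.Hypergraph
import Mathlib.Algebra.BigOperators.Field
import Mathlib.Data.Nat.Choose.Bounds

/-!
Averaging over the vertex set `U` and the resulting influence inequality.
-/

open Finset

namespace Vale.Agent.P063

variable {n r : ℕ}

/-- All vertex sets of size `m`. -/
def subsetsOf (n m : ℕ) : Finset (Finset (Fin n)) := (univ : Finset (Fin n)).powersetCard m

/-- The number of `m`-sets containing `T`. -/
def cnt (m : ℕ) (T : Finset (Fin n)) : ℝ :=
  ∑ U ∈ subsetsOf n m, if T ⊆ U then (1 : ℝ) else 0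

theorem cnt_perm (m : ℕ) (T : Finset (Fin n)) (σ : Equiv.Perm (Fin n)) :
    cnt m (T.map σ.toEmbedding) = cnt m T := by
  simp only [cnt]
  refine sum_equiv (Equiv.finsetCongr σ).symm ?_ ?_
  · intro U
    simp [subsetsOf, mem_powersetCard, Equiv.finsetCongr_apply]
  · intro U _
    refine if_congr ?_ rfl rfl
    simp [Equiv.finsetCongr_apply, Finset.subset_iff]
    exact ⟨fun h x hx => h (by simpa using hx), fun h x hx => by simpa using h hx⟩

theorem cnt_one (m : ℕ) (u : Fin n) :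
    (n : ℝ) * cnt m {u} = m * (subsetsOf n m).card := by
  have hall : ∀ w : Fin n, cnt m {w} = cnt m {u} := fun w => by
    rw [← cnt_perm m {w} (Equiv.swap w u), map_singleton]
    simp
  calc (n : ℝ) * cnt m {u} = ∑ w : Fin n, cnt m {w} := by simp [hall]
    _ = ∑ U ∈ subsetsOf n m, (U.card : ℝ) := by
        simp only [cnt]
        rw [sum_comm]
        refine sum_congr rfl fun U _ => ?_
        simp
    _ = ∑ _U ∈ subsetsOf n m, (m : ℝ) :=
        sum_congr rfl fun U hU => by rw [(mem_powersetCard.1 hU).2]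
    _ = _ := by simp [mul_comm]

theorem cnt_two (m : ℕ) {u w : Fin n} (h : w ≠ u) :
    ((n : ℝ) - 1) * cnt m {u, w} = ((m : ℝ) - 1) * cnt m {u} := by
  have hall : ∀ v ∈ (univ : Finset (Fin n)).erase u, cnt m {u, v} = cnt m {u, w} := by
    intro v hv
    rw [← cnt_perm m {u, v} (Equiv.swap v w), map_insert, map_singleton]
    simp [Equiv.swap_apply_of_ne_of_ne (ne_of_mem_erase hv).symm h.symm]
  calc ((n : ℝ) - 1) * cnt m {u, w}
      = ∑ v ∈ (univ : Finset (Fin n)).erase u, cnt m {u, v} := by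
        rw [sum_congr rfl hall, sum_const, card_erase_of_mem (mem_univ _), card_univ,
          Fintype.card_fin, nsmul_eq_mul, Nat.cast_sub (Nat.succ_le_of_lt u.pos), Nat.cast_one]
    _ = ∑ U ∈ subsetsOf n m, (if {u} ⊆ U then ((m : ℝ) - 1) else 0) := by
        simp only [cnt]
        rw [sum_comm]
        refine sum_congr rfl fun U hU => ?_
        by_cases hu : u ∈ U
        · rw [if_pos (singleton_subset_iff.2 hu), ← sum_filter]
          have : ((univ : Finset (Fin n)).erase u).filter (fun v => {u, v} ⊆ U) = U.erase u := by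
            ext v; simp [insert_subset_iff, hu]
          rw [this, sum_const, nsmul_eq_mul, mul_one, card_erase_of_mem hu,
            Nat.cast_sub (card_pos.2 ⟨u, hu⟩), (mem_powersetCard.1 hU).2, Nat.cast_one]
        · rw [if_neg (by simpa using hu)]
          exact sum_eq_zero fun v _ => if_neg (by simp [insert_subset_iff, hu])
    _ = _ := by
        simp only [cnt, mul_sum, mul_ite, mul_one, mul_zero]

/-- For a set of at most `L` vertices, each of them is the only one hit with probability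
at least `m / (2 n)`. -/
theorem single_hit {m L : ℕ} (hm : 1 ≤ m) (hL : 2 * L * m ≤ n) {V : Finset (Fin n)}
    (hV : V.card ≤ L) {u : Fin n} (hu : u ∈ V) :
    (m : ℝ) * (subsetsOf n m).card / (2 * n)
      ≤ ∑ U ∈ subsetsOf n m, if V ∩ U = {u} then (1 : ℝ) else 0 := by
  have hcard : (V.erase u).card + 1 ≤ L := by
    rw [card_erase_add_one hu]; exact hV
  have hpt : ∀ U ∈ subsetsOf n m,
      (if {u} ⊆ U then (1 : ℝ) else 0) - ∑ w ∈ V.erase u, (if {u, w} ⊆ U then (1 : ℝ) else 0)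
        ≤ if V ∩ U = {u} then (1 : ℝ) else 0 := by
    intro U _
    have nn : 0 ≤ ∑ w ∈ V.erase u, (if {u, w} ⊆ U then (1 : ℝ) else 0) :=
      sum_nonneg fun w _ => by split_ifs <;> norm_num
    by_cases hu' : {u} ⊆ U
    · by_cases hV' : V ∩ U = {u}
      · rw [if_pos hu', if_pos hV']; linarith
      · obtain ⟨w, hw, hwU⟩ : ∃ w ∈ V.erase u, w ∈ U := by
          by_contra hc
          push Not at hc
          apply hV'
          ext w
          simp only [mem_inter, mem_singleton]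
          refine ⟨fun hw => ?_, fun hw => by subst hw; exact ⟨hu, singleton_subset_iff.1 hu'⟩⟩
          by_contra hne
          exact hc w (mem_erase.2 ⟨hne, hw.1⟩) hw.2
        have : (1 : ℝ) ≤ ∑ w ∈ V.erase u, (if {u, w} ⊆ U then (1 : ℝ) else 0) := by
          refine le_trans (le_of_eq ?_) (single_le_sum (fun v _ => ?_) hw)
          · rw [if_pos (insert_subset_iff.2 ⟨singleton_subset_iff.1 hu',
              singleton_subset_iff.2 hwU⟩)]
          · split_ifs <;> norm_num
        rw [if_pos hu', if_neg hV']; linarith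
    · rw [if_neg hu']
      have : (0 : ℝ) ≤ if V ∩ U = {u} then (1 : ℝ) else 0 := by split_ifs <;> norm_num
      linarith
  have hsum := sum_le_sum hpt
  rw [sum_sub_distrib, sum_comm] at hsum
  refine le_trans ?_ hsum
  change _ ≤ cnt m {u} - ∑ w ∈ V.erase u, cnt m {u, w}
  have hn : (0 : ℝ) < n := by exact_mod_cast u.pos
  have hc1 := cnt_one m u
  by_cases hn1 : V.erase u = ∅
  · rw [hn1, sum_empty, sub_zero, div_le_iff₀ (by positivity), ← hc1]
    nlinarith [show 0 ≤ cnt m {u} from sum_nonneg fun _ _ => by split_ifs <;> norm_num]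
  · have hLpos : 2 ≤ L := by
      have := card_pos.2 (nonempty_iff_ne_empty.2 hn1); omega
    have hn4 : (4 : ℝ) * m ≤ n := by exact_mod_cast (by nlinarith : 4 * m ≤ n)
    have hm' : (1 : ℝ) ≤ m := by exact_mod_cast hm
    have hn1' : (0 : ℝ) < (n : ℝ) - 1 := by linarith
    have h2 : ∀ w ∈ V.erase u, cnt m {u, w} = ((m : ℝ) - 1) / ((n : ℝ) - 1) * cnt m {u} := by
      intro w hw
      rw [div_mul_eq_mul_div, eq_div_iff hn1'.ne', mul_comm, cnt_two m (ne_of_mem_erase hw)]
    rw [sum_congr rfl h2, sum_const, nsmul_eq_mul]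
    have hk : ((V.erase u).card : ℝ) ≤ (L : ℝ) - 1 := by
      have : ((V.erase u).card : ℝ) + 1 ≤ L := by exact_mod_cast hcard
      linarith
    have hL' : 2 * (L : ℝ) * m ≤ n := by exact_mod_cast hL
    have h3 : ((V.erase u).card : ℝ) * (((m : ℝ) - 1) / ((n : ℝ) - 1)) ≤ 1 / 2 := by
      rw [mul_div_assoc', div_le_iff₀ hn1']
      nlinarith [mul_le_mul_of_nonneg_right hk (show (0 : ℝ) ≤ (m : ℝ) - 1 by linarith)]
    have c0 : 0 ≤ cnt m {u} := sum_nonneg fun _ _ => by split_ifs <;> norm_num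
    rw [div_le_iff₀ (by positivity), ← hc1, ← mul_assoc]
    nlinarith [mul_le_mul_of_nonneg_left h3 (mul_nonneg hn.le c0)]

theorem alive_avg (m : ℕ) (S : Finset (Edge n r)) (hn : 0 < n) :
    ∑ U ∈ subsetsOf n m, ((S ∩ alive U).card : ℝ)
      ≤ (r : ℝ) * m / n * (subsetsOf n m).card * S.card := by
  have h1 : ∀ U : Finset (Fin n), ((S ∩ alive U).card : ℝ)
      ≤ ∑ e ∈ S, ∑ u ∈ e.1, if {u} ⊆ U then (1 : ℝ) else 0 := by
    intro U
    have he : ((S ∩ alive U).card : ℝ) = ∑ e ∈ S, if e ∈ alive U then (1 : ℝ) else 0 := by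
      rw [← sum_filter, filter_mem_eq_inter, sum_const, nsmul_eq_mul, mul_one]
    rw [he]
    refine sum_le_sum fun e _ => ?_
    by_cases he' : e ∈ alive U
    · obtain ⟨u, hu, huU⟩ := mem_alive.1 he'
      rw [if_pos he']
      refine le_trans (le_of_eq ?_) (single_le_sum (fun v _ => ?_) hu)
      · rw [if_pos (singleton_subset_iff.2 huU)]
      · split_ifs <;> norm_num
    · rw [if_neg he']
      exact sum_nonneg fun v _ => by split_ifs <;> norm_num
  refine (sum_le_sum fun U _ => h1 U).trans (le_of_eq ?_)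
  have hc : ∀ u : Fin n, cnt m {u} = (m : ℝ) / n * (subsetsOf n m).card := fun u => by
    rw [div_mul_eq_mul_div, eq_div_iff (by positivity), mul_comm, cnt_one]
  rw [sum_comm]
  calc ∑ e ∈ S, ∑ U ∈ subsetsOf n m, ∑ u ∈ e.1, (if {u} ⊆ U then (1 : ℝ) else 0)
      = ∑ e ∈ S, ∑ u ∈ e.1, cnt m {u} := by
        refine sum_congr rfl fun e _ => ?_
        rw [sum_comm]; rfl
    _ = ∑ _e ∈ S, (r : ℝ) * ((m : ℝ) / n * (subsetsOf n m).card) := by
        refine sum_congr rfl fun e _ => ?_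
        simp [hc, e.2]
    _ = _ := by rw [sum_const, nsmul_eq_mul]; ring

/-- A set of edges spanning few vertices leaves at most `L ^ (r - 1)` edges at one vertex. -/
theorem edges_at_vertex {L : ℕ} {S : Finset (Edge n r)} (hV : (vset S).card ≤ L)
    {U : Finset (Fin n)} {u : Fin n} (hUu : vset S ∩ U = {u}) :
    1 ≤ (S ∩ alive U).card ∧ (S ∩ alive U).card ≤ L ^ (r - 1) := by
  have hu : u ∈ vset S ∩ U := by rw [hUu]; exact mem_singleton_self u
  obtain ⟨huV, huU⟩ := mem_inter.1 hu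
  obtain ⟨e, heS, hue⟩ := mem_biUnion.1 huV
  refine ⟨card_pos.2 ⟨e, mem_inter.2 ⟨heS, mem_alive.2 ⟨u, hue, huU⟩⟩⟩, ?_⟩
  have hmem : ∀ d ∈ S ∩ alive U, u ∈ d.1 := by
    intro d hd
    obtain ⟨w, hw, hwU⟩ := mem_alive.1 (mem_inter.1 hd).2
    have : w ∈ vset S ∩ U := mem_inter.2 ⟨mem_biUnion.2 ⟨d, (mem_inter.1 hd).1, hw⟩, hwU⟩
    rw [hUu, mem_singleton] at this
    exact this ▸ hw
  have hle : (S ∩ alive U).card ≤ (((vset S).erase u).powersetCard (r - 1)).card := by
    refine card_le_card_of_injOn (fun d => d.1.erase u) ?_ ?_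
    · intro d hd
      simp only [mem_coe, mem_powersetCard] at hd ⊢
      refine ⟨erase_subset_erase _ ?_, by rw [card_erase_of_mem (hmem d hd), d.2]⟩
      exact fun w hw => mem_biUnion.2 ⟨d, (mem_inter.1 hd).1, hw⟩
    · intro d hd d' hd' h
      simp only [mem_coe] at hd hd'
      apply Subtype.ext
      rw [← insert_erase (hmem d hd), ← insert_erase (hmem d' hd')]
      simp only at h
      rw [h]
  rw [card_powersetCard] at hle
  refine hle.trans ((Nat.choose_le_pow _ _).trans (Nat.pow_le_pow_left ?_ _))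
  exact (card_erase_le).trans hV

/-- The key pointwise averaging bound. -/
theorem pointwise_avg {m L : ℕ} (hm : 1 ≤ m) (hL1 : 1 ≤ L) (hL : 2 * L * m ≤ n)
    {S : Finset (Edge n r)} (hr : 1 ≤ r) (hS : S.Nonempty) :
    (m : ℝ) * (subsetsOf n m).card / (2 * n) ≤
      ∑ U ∈ subsetsOf n m,
        ((if 1 ≤ (S ∩ alive U).card ∧ (S ∩ alive U).card ≤ L ^ (r - 1) then (1 : ℝ) else 0)
          + (if 1 ≤ (S ∩ alive U).card then (1 : ℝ) else 0) / L) := by
  have hV : (vset S).Nonempty := by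
    obtain ⟨e, he⟩ := hS
    obtain ⟨u, hu⟩ := card_pos.1 (e.2.symm ▸ (hr : 0 < r) : 0 < e.1.card)
    exact ⟨u, mem_biUnion.2 ⟨e, he, hu⟩⟩
  have hL0 : (0 : ℝ) < L := by exact_mod_cast hL1
  rcases le_or_gt (vset S).card L with hle | hgt
  · obtain ⟨u, hu⟩ := hV
    refine (single_hit hm hL hle hu).trans (sum_le_sum fun U _ => ?_)
    by_cases hU : vset S ∩ U = {u}
    · rw [if_pos hU, if_pos (edges_at_vertex hle hU)]
      exact le_add_of_nonneg_right (by split_ifs <;> positivity)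
    · rw [if_neg hU]
      exact add_nonneg (by split_ifs <;> norm_num) (by split_ifs <;> positivity)
  · obtain ⟨V, hVS, hVc⟩ := exists_subset_card_eq hgt.le
    have h1 : (L : ℝ) * ((m : ℝ) * (subsetsOf n m).card / (2 * n))
        ≤ ∑ U ∈ subsetsOf n m, (if 1 ≤ (S ∩ alive U).card then (1 : ℝ) else 0) := by
      calc (L : ℝ) * ((m : ℝ) * (subsetsOf n m).card / (2 * n))
          = ∑ _u ∈ V, (m : ℝ) * (subsetsOf n m).card / (2 * n) := by simp [hVc]
        _ ≤ ∑ u ∈ V, ∑ U ∈ subsetsOf n m, (if V ∩ U = {u} then (1 : ℝ) else 0) :=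
            sum_le_sum fun u hu => single_hit hm hL hVc.le hu
        _ ≤ _ := by
          rw [sum_comm]
          refine sum_le_sum fun U _ => ?_
          by_cases hex : ∃ u ∈ V, V ∩ U = {u}
          · obtain ⟨u, hu, hUu⟩ := hex
            have huU : u ∈ U := (mem_inter.1 (hUu.symm ▸ mem_singleton_self u)).2
            obtain ⟨e, he, hue⟩ := mem_biUnion.1 (hVS hu)
            rw [if_pos (show 1 ≤ (S ∩ alive U).card from
              card_pos.2 ⟨e, mem_inter.2 ⟨he, mem_alive.2 ⟨u, hue, huU⟩⟩⟩)]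
            rw [sum_eq_single u]
            · rw [if_pos hUu]
            · intro w hw hwu
              rw [if_neg]
              intro hUw
              rw [hUu] at hUw
              exact hwu (singleton_injective hUw).symm
            · exact fun h => absurd hu h
          · push Not at hex
            rw [sum_eq_zero fun u hu => if_neg (hex u hu)]
            split_ifs <;> norm_num
    calc (m : ℝ) * (subsetsOf n m).card / (2 * n)
        ≤ (∑ U ∈ subsetsOf n m, (if 1 ≤ (S ∩ alive U).card then (1 : ℝ) else 0)) / L := by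
          rw [le_div_iff₀ hL0, mul_comm]; exact h1
      _ ≤ _ := by
          rw [sum_div]
          exact sum_le_sum fun U _ => le_add_of_nonneg_left (by split_ifs <;> norm_num)

variable {f : (Edge n r → Bool) → ℝ} {p : ℝ}

/-- Mass of the sets with between `1` and `D` edges alive. -/
noncomputable def lowW (p : ℝ) (f : (Edge n r → Bool) → ℝ) (D : ℕ) (U : Finset (Fin n)) : ℝ :=
  ∑ S : Finset (Edge n r),
    (if 1 ≤ (S ∩ alive U).card ∧ (S ∩ alive U).card ≤ D then (1 : ℝ) else 0) * coef p f S ^ 2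

/-- Mass of the sets with some edge alive. -/
noncomputable def hitW (p : ℝ) (f : (Edge n r → Bool) → ℝ) (U : Finset (Fin n)) : ℝ :=
  ∑ S : Finset (Edge n r), (if 1 ≤ (S ∩ alive U).card then (1 : ℝ) else 0) * coef p f S ^ 2

/-- Averaged influence of the alive edges. -/
noncomputable def aliveW (p : ℝ) (f : (Edge n r → Bool) → ℝ) (U : Finset (Fin n)) : ℝ :=
  ∑ S : Finset (Edge n r), ((S ∩ alive U).card : ℝ) * coef p f S ^ 2

theorem aliveW_nonneg (p : ℝ) (f : (Edge n r → Bool) → ℝ) (U : Finset (Fin n)) :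
    0 ≤ aliveW p f U := sum_nonneg fun _ _ => mul_nonneg (Nat.cast_nonneg _) (sq_nonneg _)

theorem aliveW_le (p : ℝ) (f : (Edge n r → Bool) → ℝ) (U : Finset (Fin n)) :
    aliveW p f U ≤ ∑ S : Finset (Edge n r), (S.card : ℝ) * coef p f S ^ 2 :=
  sum_le_sum fun S _ =>
    mul_le_mul_of_nonneg_right (by exact_mod_cast card_le_card inter_subset_left) (sq_nonneg _)

theorem lowW_nonneg (p : ℝ) (f : (Edge n r → Bool) → ℝ) (D : ℕ) (U : Finset (Fin n)) :
    0 ≤ lowW p f D U :=
  sum_nonneg fun _ _ => mul_nonneg (by split_ifs <;> norm_num) (sq_nonneg _)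

theorem hitW_le (p : ℝ) (f : (Edge n r → Bool) → ℝ) {D : ℕ} (hD : 1 ≤ D) (U : Finset (Fin n)) :
    hitW p f U ≤ lowW p f D U + aliveW p f U / D := by
  unfold hitW lowW aliveW
  rw [sum_div, ← sum_add_distrib]
  refine sum_le_sum fun S _ => ?_
  by_cases hS : 1 ≤ (S ∩ alive U).card
  · by_cases hS' : (S ∩ alive U).card ≤ D
    · rw [if_pos hS, if_pos ⟨hS, hS'⟩]
      exact le_add_of_nonneg_right (by positivity)
    · rw [if_pos hS, if_neg (fun h => hS' h.2), zero_mul, zero_add, one_mul,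
        le_div_iff₀ (by positivity), mul_comm]
      refine mul_le_mul_of_nonneg_right ?_ (sq_nonneg _)
      exact_mod_cast (not_le.1 hS').le
  · rw [if_neg hS, if_neg (fun h => hS h.1)]
    simp only [zero_mul, zero_add]
    positivity

theorem avg_lower {m L : ℕ} (hm : 1 ≤ m) (hL1 : 1 ≤ L) (hL : 2 * L * m ≤ n) (hr : 1 ≤ r)
    (p : ℝ) (f : (Edge n r → Bool) → ℝ) :
    (m : ℝ) * (subsetsOf n m).card / (2 * n) *
        ∑ S : Finset (Edge n r) with S.Nonempty, coef p f S ^ 2
      ≤ ∑ U ∈ subsetsOf n m, (lowW p f (L ^ (r - 1)) U + hitW p f U / L) := by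
  have h1 : ∀ U, lowW p f (L ^ (r - 1)) U + hitW p f U / L = ∑ S : Finset (Edge n r),
      ((if 1 ≤ (S ∩ alive U).card ∧ (S ∩ alive U).card ≤ L ^ (r - 1) then (1 : ℝ) else 0)
        + (if 1 ≤ (S ∩ alive U).card then (1 : ℝ) else 0) / L) * coef p f S ^ 2 := by
    intro U
    unfold lowW hitW
    rw [sum_div, ← sum_add_distrib]
    exact sum_congr rfl fun S _ => by ring
  simp only [h1]
  rw [sum_comm, mul_sum]
  simp only [← Finset.sum_mul]
  refine le_trans (sum_le_sum fun S hS => mul_le_mul_of_nonneg_right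
    (pointwise_avg hm hL1 hL hr (mem_filter.1 hS).2) (sq_nonneg _)) ?_
  refine sum_le_sum_of_subset_of_nonneg (subset_univ _) fun S _ _ =>
    mul_nonneg (sum_nonneg fun U _ => ?_) (sq_nonneg _)
  exact add_nonneg (by split_ifs <;> norm_num) (by split_ifs <;> positivity)

theorem avg_alive (m : ℕ) (hn : 0 < n) (p : ℝ) (f : (Edge n r → Bool) → ℝ) :
    ∑ U ∈ subsetsOf n m, aliveW p f U
      ≤ (r : ℝ) * m / n * (subsetsOf n m).card *
        ∑ S : Finset (Edge n r), (S.card : ℝ) * coef p f S ^ 2 := by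
  unfold aliveW
  rw [sum_comm, mul_sum]
  refine sum_le_sum fun S _ => ?_
  rw [← Finset.sum_mul, ← mul_assoc]
  exact mul_le_mul_of_nonneg_right (alive_avg m S hn) (sq_nonneg _)

/-- The arithmetic combining the averaged bounds. -/
theorem combine {V J B κ N n m L R : ℝ} {r : ℕ} (hJ : 0 ≤ J) (hN : 0 < N) (hn : 0 < n) (hm : 0 < m)
    (hL : 0 < L) (hB : 0 < B) (hκ : κ = 32 * L ^ (r + 1) * B) (hnm : n ≤ 4 * L * m)
    (h : m * N / (2 * n) * V ≤ 4 * B / κ * J * N + R * m / n * N * J / L ^ r) :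
    L ^ r * V ≤ (2 * R + 1) * J := by
  have hκp : 0 < κ := by rw [hκ]; positivity
  have hd : n / m ≤ 4 * L := by rw [div_le_iff₀ hm]; exact hnm
  have hV' : V ≤ 8 * (n / m) * B / κ * J + 2 * R * J / L ^ r := by
    refine le_of_mul_le_mul_left ?_ (show 0 < m * N / (2 * n) by positivity)
    refine h.trans (le_of_eq ?_)
    field_simp
    ring
  have hsmall : 8 * (n / m) * B / κ * L ^ r ≤ 1 := by
    rw [div_mul_eq_mul_div, div_le_one hκp]
    calc 8 * (n / m) * B * L ^ r ≤ 8 * (4 * L) * B * L ^ r := by gcongr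
      _ = κ := by rw [hκ, pow_succ]; ring
  calc L ^ r * V ≤ L ^ r * (8 * (n / m) * B / κ * J + 2 * R * J / L ^ r) :=
        mul_le_mul_of_nonneg_left hV' (by positivity)
    _ = (8 * (n / m) * B / κ * L ^ r) * J + 2 * R * J := by field_simp
    _ ≤ 1 * J + 2 * R * J := by gcongr
    _ = _ := by ring

/-- The bound for one vertex set. -/
theorem GoodFun.per_U (hf : GoodFun f) (h0 : 0 < p) (h1 : p < 1) {L D : ℕ} (hL : 1 ≤ L)
    (hD : 1 ≤ D) {κ : ℝ} (hκ : 1 ≤ κ) {U : Finset (Fin n)} (hU : κ ^ 4 ≤ (U.card : ℝ) - r) :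
    lowW p f D U + hitW p f U / L ≤
      4 * (16 / (p * (1 - p))) ^ D / κ * ∑ S : Finset (Edge n r), (S.card : ℝ) * coef p f S ^ 2
        + aliveW p f U / ((D : ℝ) * L) := by
  have hpq : 0 < p * (1 - p) := by nlinarith
  have hlow : lowW p f D U ≤ 2 * (16 / (p * (1 - p))) ^ D / κ * aliveW p f U :=
    hf.low_bound h0 h1 hD hκ hU
  have hκ0 : 0 < κ := by linarith
  have hc : 0 ≤ 2 * (16 / (p * (1 - p))) ^ D / κ := by positivity
  have hlow' := hlow.trans (mul_le_mul_of_nonneg_left (aliveW_le p f U) hc)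
  have hL' : (1 : ℝ) ≤ L := by exact_mod_cast hL
  have hhit : hitW p f U / L ≤ lowW p f D U + aliveW p f U / ((D : ℝ) * L) := by
    rw [← div_div]
    calc hitW p f U / L ≤ (lowW p f D U + aliveW p f U / D) / L :=
          div_le_div_of_nonneg_right (hitW_le p f hD U) (by linarith)
      _ ≤ _ := by
          rw [add_div]
          exact add_le_add (div_le_self (lowW_nonneg p f D U) hL') le_rfl
  rw [show 4 * (16 / (p * (1 - p))) ^ D / κ = 2 * (16 / (p * (1 - p))) ^ D / κ
    + 2 * (16 / (p * (1 - p))) ^ D / κ by ring, add_mul]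
  linarith

/-- Variance against total influence, for given parameters. -/
theorem GoodFun.var_le (hf : GoodFun f) (h0 : 0 < p) (h1 : p < 1) (hr : 2 ≤ r) {m L : ℕ}
    (hm : 1 ≤ m) (hL1 : 1 ≤ L) (hL : 2 * L * m ≤ n) (hLm : n ≤ 4 * L * m) {κ : ℝ}
    (hκ : κ = 32 * (L : ℝ) ^ (r + 1) * (16 / (p * (1 - p))) ^ (L ^ (r - 1)))
    (hbig : κ ^ 4 ≤ (m : ℝ) - r) :
    (L : ℝ) ^ r * ∑ S : Finset (Edge n r) with S.Nonempty, coef p f S ^ 2
      ≤ (2 * r + 1) * ∑ S : Finset (Edge n r), (S.card : ℝ) * coef p f S ^ 2 := by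
  have hpq : 0 < p * (1 - p) := by nlinarith
  have hLr : (1 : ℝ) ≤ L := by exact_mod_cast hL1
  have hD1 : 1 ≤ L ^ (r - 1) := Nat.one_le_pow _ _ hL1
  have hB1 : (1 : ℝ) ≤ (16 / (p * (1 - p))) ^ (L ^ (r - 1)) := one_le_pow₀ (by
    rw [le_div_iff₀ hpq]; nlinarith [sq_nonneg (p - 1 / 2)])
  have hκ1 : 1 ≤ κ := by
    rw [hκ]; nlinarith [one_le_pow₀ hLr (n := r + 1)]
  have hDL : ((L ^ (r - 1) : ℕ) : ℝ) * L = (L : ℝ) ^ r := by
    push_cast
    rw [← pow_succ]; congr 1; omega
  have hn : 0 < n := by nlinarith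
  have hN : (0 : ℝ) < (subsetsOf n m).card := by
    simp only [subsetsOf, card_powersetCard, card_univ, Fintype.card_fin]
    exact_mod_cast Nat.choose_pos (by nlinarith)
  refine combine (sum_nonneg fun S _ => mul_nonneg (Nat.cast_nonneg _) (sq_nonneg _)) hN
    (by exact_mod_cast hn) (by exact_mod_cast hm) (by linarith) (by linarith) hκ
    (by exact_mod_cast hLm) ((avg_lower hm hL1 hL (by omega) p f).trans ?_)
  calc ∑ U ∈ subsetsOf n m, (lowW p f (L ^ (r - 1)) U + hitW p f U / L)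
      ≤ ∑ U ∈ subsetsOf n m, (4 * (16 / (p * (1 - p))) ^ (L ^ (r - 1)) / κ *
          (∑ S : Finset (Edge n r), (S.card : ℝ) * coef p f S ^ 2)
          + aliveW p f U / (L : ℝ) ^ r) := by
        refine sum_le_sum fun U hU => ?_
        rw [← hDL]
        refine hf.per_U h0 h1 hL1 hD1 hκ1 ?_
        rw [(mem_powersetCard.1 hU).2]; exact hbig
    _ ≤ _ := by
        rw [sum_add_distrib, sum_const, nsmul_eq_mul, ← sum_div]
        refine add_le_add (le_of_eq (by ring))
          (div_le_div_of_nonneg_right (avg_alive m hn p f) (by positivity))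

end Vale.Agent.P063
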