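import Mathlib.Data.Real.Sqrt
import Mathlib.Data.Fintype.BigOperators
import Mathlib.Algebra.Order.BigOperators.Ring.Finset
import Mathlib.Algebra.BigOperators.Ring.Finset
import Mathlib.Tactic.Linarith
import Mathlib.Tactic.FieldSimp
import Mathlib.Tactic.Ring
import Mathlib.Tactic.LinearCombination
import Mathlib.Tactic.Positivity

/-!
Fourier analysis on the `p`-biased cube, with the fourth moment bound for low degree functions.
-/

open Finset

namespace Vale.Agent.P063

variable {ι : Type*} [Fintype ι] [DecidableEq ι]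

/-- One-coordinate weight. -/
def wt (p : ℝ) (b : Bool) : ℝ := if b then p else 1 - p

/-- Product weight. -/
def mass (p : ℝ) (x : ι → Bool) : ℝ := ∏ e, wt p (x e)

/-- Expectation under the biased product measure. -/
def Ex (p : ℝ) (F : (ι → Bool) → ℝ) : ℝ := ∑ x, mass p x * F x

/-- The normalized centred coordinate. -/
noncomputable def ch (p : ℝ) (b : Bool) : ℝ :=
  if b then (1 - p) / Real.sqrt (p * (1 - p)) else -p / Real.sqrt (p * (1 - p))

/-- Biased characters. -/
noncomputable def chi (p : ℝ) (S : Finset ι) (x : ι → Bool) : ℝ := ∏ e ∈ S, ch p (x e)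

/-- Fourier coefficient. -/
noncomputable def coef (p : ℝ) (f : (ι → Bool) → ℝ) (S : Finset ι) : ℝ :=
  Ex p (fun x => f x * chi p S x)

/-- Discrete derivative. -/
def der (e : ι) (f : (ι → Bool) → ℝ) (x : ι → Bool) : ℝ :=
  f (Function.update x e true) - f (Function.update x e false)

section basic

variable {p : ℝ}

theorem sqrt_pq_pos (h0 : 0 < p) (h1 : p < 1) : 0 < Real.sqrt (p * (1 - p)) :=
  Real.sqrt_pos.2 (by nlinarith)

theorem sq_sqrt_pq (h0 : 0 < p) (h1 : p < 1) :
    Real.sqrt (p * (1 - p)) ^ 2 = p * (1 - p) :=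
  Real.sq_sqrt (by nlinarith)

theorem wt_nonneg (h0 : 0 ≤ p) (h1 : p ≤ 1) (b : Bool) : 0 ≤ wt p b := by
  cases b <;> simp [wt] <;> linarith

theorem mass_nonneg (h0 : 0 ≤ p) (h1 : p ≤ 1) (x : ι → Bool) : 0 ≤ mass p x :=
  prod_nonneg fun _ _ => wt_nonneg h0 h1 _

theorem sum_mass (p : ℝ) : ∑ x : ι → Bool, mass p x = 1 := by
  unfold mass
  rw [← Fintype.prod_sum (fun (_ : ι) b => wt p b)]
  simp [wt]

theorem Ex_const (p c : ℝ) : Ex p (fun _ : ι → Bool => c) = c := by
  simp [Ex, ← Finset.sum_mul, sum_mass]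

theorem Ex_add (p : ℝ) (F G : (ι → Bool) → ℝ) :
    Ex p (fun x => F x + G x) = Ex p F + Ex p G := by
  simp [Ex, mul_add, sum_add_distrib]

theorem Ex_sub (p : ℝ) (F G : (ι → Bool) → ℝ) :
    Ex p (fun x => F x - G x) = Ex p F - Ex p G := by
  simp [Ex, mul_sub, sum_sub_distrib]

theorem Ex_const_mul (p c : ℝ) (F : (ι → Bool) → ℝ) :
    Ex p (fun x => c * F x) = c * Ex p F := by
  simp [Ex, mul_sum]
  exact sum_congr rfl fun x _ => by ring

theorem Ex_sum {κ : Type*} (p : ℝ) (s : Finset κ) (F : κ → (ι → Bool) → ℝ) :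
    Ex p (fun x => ∑ k ∈ s, F k x) = ∑ k ∈ s, Ex p (F k) := by
  simp [Ex, mul_sum]
  exact sum_comm

theorem Ex_mono (h0 : 0 ≤ p) (h1 : p ≤ 1) {F G : (ι → Bool) → ℝ} (h : ∀ x, F x ≤ G x) :
    Ex p F ≤ Ex p G :=
  sum_le_sum fun x _ => mul_le_mul_of_nonneg_left (h x) (mass_nonneg h0 h1 x)

theorem Ex_nonneg (h0 : 0 ≤ p) (h1 : p ≤ 1) {F : (ι → Bool) → ℝ} (h : ∀ x, 0 ≤ F x) :
    0 ≤ Ex p F :=
  sum_nonneg fun x _ => mul_nonneg (mass_nonneg h0 h1 x) (h x)

theorem Ex_sq_le (h0 : 0 ≤ p) (h1 : p ≤ 1) (F G : (ι → Bool) → ℝ) :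
    Ex p (fun x => F x * G x) ^ 2 ≤ Ex p (fun x => F x ^ 2) * Ex p (fun x => G x ^ 2) := by
  refine sum_sq_le_sum_mul_sum_of_sq_eq_mul (s := Finset.univ)
    (r := fun x => mass p x * (F x * G x)) (f := fun x => mass p x * F x ^ 2)
    (g := fun x => mass p x * G x ^ 2) ?_ ?_ ?_
  · exact fun x _ => mul_nonneg (mass_nonneg h0 h1 x) (sq_nonneg _)
  · exact fun x _ => mul_nonneg (mass_nonneg h0 h1 x) (sq_nonneg _)
  · exact fun x _ => by ring

/-- Average out one coordinate. -/
theorem Ex_split (p : ℝ) (e : ι) (F : (ι → Bool) → ℝ) :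
    Ex p F =
      Ex p (fun x => p * F (Function.update x e true) + (1 - p) * F (Function.update x e false)) := by
  set E := (Equiv.funSplitAt e Bool).symm with hE
  have hm : ∀ q : Bool × ({j // j ≠ e} → Bool),
      mass p (E q) = wt p q.1 * ∏ j : {j // j ≠ e}, wt p (q.2 j) := by
    intro q
    rw [mass, Fintype.prod_eq_mul_prod_subtype_ne _ e]
    congr 1
    · simp [E]
    · exact prod_congr rfl fun j _ => by simp [E, j.2]
  have hu : ∀ q : Bool × ({j // j ≠ e} → Bool), ∀ b : Bool,
      Function.update (E q) e b = E (b, q.2) := by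
    intro q b
    funext j
    by_cases hj : j = e
    · subst hj; simp [E]
    · simp [E, hj]
  simp only [Ex]
  rw [← Equiv.sum_comp E (fun x => mass p x * F x), ← Equiv.sum_comp E]
  simp only [hm, hu, Fintype.sum_prod_type, Fintype.sum_bool, wt, if_true, Bool.false_eq_true,
    if_false, ← sum_add_distrib]
  refine sum_congr rfl fun y _ => ?_
  ring

/-- Reindexing the coordinates preserves the expectation. -/
theorem Ex_perm (p : ℝ) (τ : ι ≃ ι) (F : (ι → Bool) → ℝ) :
    Ex p (fun x => F (x ∘ τ)) = Ex p F := by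
  simp only [Ex]
  refine Fintype.sum_equiv (Equiv.arrowCongr τ.symm (Equiv.refl Bool)) _ _ fun x => ?_
  have : mass p ((Equiv.arrowCongr τ.symm (Equiv.refl Bool)) x) = mass p x := by
    simp only [mass]
    exact Fintype.prod_equiv τ _ _ fun e => by simp
  rw [this]
  have hx : (Equiv.arrowCongr τ.symm (Equiv.refl Bool)) x = x ∘ τ := by funext e; simp
  rw [hx]

end basic

variable {p : ℝ}

theorem chi_empty (p : ℝ) (x : ι → Bool) : chi p ∅ x = 1 := by simp [chi]

theorem chi_mul (p : ℝ) (S : Finset ι) (x : ι → Bool) :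
    chi p S x = ∏ e, if e ∈ S then ch p (x e) else 1 := by
  simp [chi, Finset.prod_ite_mem]

theorem orth (h0 : 0 < p) (h1 : p < 1) (S T : Finset ι) :
    Ex p (fun x => chi p S x * chi p T x) = if S = T then 1 else 0 := by
  let a : ι → Bool → ℝ := fun e b =>
    wt p b * ((if e ∈ S then ch p b else 1) * (if e ∈ T then ch p b else 1))
  have hL : Ex p (fun x => chi p S x * chi p T x) = ∏ e, ∑ b, a e b := by
    rw [Fintype.prod_sum a]
    simp only [Ex, mass, chi_mul, ← prod_mul_distrib, a]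
  have hs := sq_sqrt_pq h0 h1
  have hp := sqrt_pq_pos h0 h1
  have ha : ∀ e, ∑ b, a e b = if (e ∈ S ↔ e ∈ T) then 1 else 0 := by
    intro e
    by_cases hS : e ∈ S <;> by_cases hT : e ∈ T <;> simp [a, hS, hT, wt, ch]
    · field_simp
      rw [hs]; ring
    · ring
    · ring
  rw [hL]
  simp only [ha]
  by_cases hST : S = T
  · simp [hST]
  · rw [if_neg hST]
    obtain ⟨e, he⟩ : ∃ e, ¬(e ∈ S ↔ e ∈ T) := by
      by_contra h
      push Not at h
      exact hST (Finset.ext h)
    exact prod_eq_zero (mem_univ e) (if_neg he)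

theorem kernel (h0 : 0 < p) (h1 : p < 1) (x y : ι → Bool) :
    mass p y * ∑ S : Finset ι, chi p S x * chi p S y = if x = y then 1 else 0 := by
  have hsum : ∑ S : Finset ι, chi p S x * chi p S y = ∏ e, (ch p (x e) * ch p (y e) + 1) := by
    rw [prod_add, powerset_univ]
    simp [chi, ← prod_mul_distrib]
  have hs := sq_sqrt_pq h0 h1
  have hp := sqrt_pq_pos h0 h1
  have ha : ∀ e, wt p (y e) * (ch p (x e) * ch p (y e) + 1) = if x e = y e then 1 else 0 := by
    intro e
    cases x e <;> cases y e <;> simp [wt, ch] <;> field_simp <;> rw [hs] <;> ring_nf <;> simp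
  rw [hsum, mass, ← prod_mul_distrib]
  simp only [ha]
  by_cases hxy : x = y
  · simp [hxy]
  · rw [if_neg hxy]
    obtain ⟨e, he⟩ : ∃ e, x e ≠ y e := Function.ne_iff.1 hxy
    exact prod_eq_zero (mem_univ e) (if_neg he)

theorem expansion (h0 : 0 < p) (h1 : p < 1) (f : (ι → Bool) → ℝ) (x : ι → Bool) :
    ∑ S : Finset ι, coef p f S * chi p S x = f x := by
  calc ∑ S : Finset ι, coef p f S * chi p S x
      = ∑ y, f y * (mass p y * ∑ S : Finset ι, chi p S x * chi p S y) := by
        simp only [coef, Ex, Finset.sum_mul, Finset.mul_sum]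
        rw [sum_comm]
        exact sum_congr rfl fun y _ => sum_congr rfl fun S _ => by ring
    _ = f x := by simp [kernel h0 h1]

theorem parseval (h0 : 0 < p) (h1 : p < 1) (f : (ι → Bool) → ℝ) :
    ∑ S : Finset ι, coef p f S ^ 2 = Ex p (fun x => f x ^ 2) := by
  calc ∑ S : Finset ι, coef p f S ^ 2
      = Ex p (fun x => f x * ∑ S : Finset ι, coef p f S * chi p S x) := by
        simp only [Finset.mul_sum]
        rw [Ex_sum]
        refine sum_congr rfl fun S _ => ?_
        rw [show (fun x => f x * (coef p f S * chi p S x))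
            = fun x => coef p f S * (f x * chi p S x) by funext x; ring, Ex_const_mul]
        rw [sq]; rfl
    _ = Ex p (fun x => f x ^ 2) := by simp only [expansion h0 h1, sq]

theorem Ex_sq_comb (h0 : 0 < p) (h1 : p < 1) (A : Finset (Finset ι)) (c : Finset ι → ℝ) :
    Ex p (fun x => (∑ S ∈ A, c S * chi p S x) ^ 2) = ∑ S ∈ A, c S ^ 2 := by
  simp only [sq, Finset.sum_mul, Finset.mul_sum]
  rw [Ex_sum]
  refine sum_congr rfl fun S hS => ?_
  rw [Ex_sum]
  calc ∑ T ∈ A, Ex p (fun x => c T * chi p T x * (c S * chi p S x))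
      = ∑ T ∈ A, c S * c T * (if S = T then 1 else 0) := by
        refine sum_congr rfl fun T _ => ?_
        rw [← orth h0 h1 S T, ← Ex_const_mul]
        congr 1; funext x; ring
    _ = c S * c S := by simp [hS]

theorem chi_update_not_mem {S : Finset ι} {e : ι} (h : e ∉ S) (x : ι → Bool) (b : Bool) :
    chi p S (Function.update x e b) = chi p S x :=
  prod_congr rfl fun j hj => by rw [Function.update_of_ne (fun hje => h (by rw [← hje]; exact hj))]

theorem chi_insert {S : Finset ι} {e : ι} (h : e ∉ S) (x : ι → Bool) :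
    chi p (insert e S) x = ch p (x e) * chi p S x := by simp [chi, prod_insert h]

/-- Fourth moment bound for functions of degree at most `D`. -/
theorem fourth_moment (h0 : 0 < p) (h1 : p < 1) (A : Finset ι) :
    ∀ (D : ℕ) (c : Finset ι → ℝ), (∀ S, D < S.card → c S = 0) →
      Ex p (fun x => (∑ S ∈ A.powerset, c S * chi p S x) ^ 4)
        ≤ (16 / (p * (1 - p))) ^ D * (∑ S ∈ A.powerset, c S ^ 2) ^ 2 := by
  have hpq : 0 < p * (1 - p) := by nlinarith
  have hB : 16 ≤ 16 / (p * (1 - p)) := by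
    rw [le_div_iff₀ hpq]; nlinarith [sq_nonneg (p - 1 / 2)]
  set B := 16 / (p * (1 - p)) with hBdef
  induction A using Finset.induction with
  | empty =>
    intro D c _
    simp only [powerset_empty, sum_singleton, chi_empty, mul_one, Ex_const]
    have : (1 : ℝ) ≤ B ^ D := one_le_pow₀ (by linarith)
    nlinarith [sq_nonneg (c ∅ ^ 2)]
  | insert e A he ih =>
    intro D c hc
    set c1 : Finset ι → ℝ := fun S => if e ∈ S then 0 else c (insert e S) with hc1
    set g0 : (ι → Bool) → ℝ := fun x => ∑ S ∈ A.powerset, c S * chi p S x with hg0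
    set g1 : (ι → Bool) → ℝ := fun x => ∑ S ∈ A.powerset, c1 S * chi p S x with hg1
    have hnot : ∀ S ∈ A.powerset, e ∉ S := fun S hS hmem => he (mem_powerset.1 hS hmem)
    have hinj : Set.InjOn (insert e) (A.powerset : Set (Finset ι)) := by
      intro S hS T hT h
      rw [← erase_insert (hnot S hS), h, erase_insert (hnot T hT)]
    have hdis : Disjoint A.powerset (A.powerset.image (insert e)) := by
      rw [disjoint_left]
      intro S hS hS'
      obtain ⟨T, _, rfl⟩ := mem_image.1 hS'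
      exact hnot _ hS (mem_insert_self _ _)
    have hg : ∀ x, ∑ S ∈ (insert e A).powerset, c S * chi p S x = g0 x + ch p (x e) * g1 x := by
      intro x
      rw [powerset_insert, sum_union hdis, sum_image hinj, hg0, hg1]
      simp only [Finset.mul_sum]
      congr 1
      refine sum_congr rfl fun S hS => ?_
      rw [chi_insert (hnot S hS), hc1]
      simp only [if_neg (hnot S hS)]
      ring
    have hsq : ∑ S ∈ (insert e A).powerset, c S ^ 2
        = ∑ S ∈ A.powerset, c S ^ 2 + ∑ S ∈ A.powerset, c1 S ^ 2 := by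
      rw [powerset_insert, sum_union hdis, sum_image hinj]
      congr 1
      exact sum_congr rfl fun S hS => by simp only [hc1, if_neg (hnot S hS)]
    have hind : ∀ (d : Finset ι → ℝ) (x : ι → Bool) (b : Bool),
        ∑ S ∈ A.powerset, d S * chi p S (Function.update x e b)
          = ∑ S ∈ A.powerset, d S * chi p S x := fun d x b =>
      sum_congr rfl fun S hS => by rw [chi_update_not_mem (hnot S hS)]
    have i0 := ih D c hc
    have i1 : B * Ex p (fun x => g1 x ^ 4) ≤ B ^ D * (∑ S ∈ A.powerset, c1 S ^ 2) ^ 2 := by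
      rcases D with _ | d
      · have hz : ∀ S, c1 S = 0 := by
          intro S
          simp only [hc1]
          split_ifs
          · rfl
          · exact hc _ (card_pos.2 ⟨e, mem_insert_self _ _⟩)
        simp [hg1, hz, Ex_const]
      · have hz : ∀ S, d < S.card → c1 S = 0 := by
          intro S hS
          simp only [hc1]
          split_ifs with h
          · rfl
          · refine hc _ ?_
            rw [card_insert_of_notMem h]; omega
        have := ih d c1 hz
        rw [pow_succ]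
        calc B * Ex p (fun x => g1 x ^ 4)
            ≤ B * (B ^ d * (∑ S ∈ A.powerset, c1 S ^ 2) ^ 2) :=
              mul_le_mul_of_nonneg_left this (by linarith)
          _ = _ := by ring
    have hpt : ∀ a b : ℝ,
        p * (a + ch p true * b) ^ 4 + (1 - p) * (a + ch p false * b) ^ 4
          ≤ a ^ 4 + 8 * (a ^ 2 * b ^ 2) + B / 2 * b ^ 4 := by
      intro a b
      set s := Real.sqrt (p * (1 - p)) with hsdef
      have hs : s ^ 2 = p * (1 - p) := sq_sqrt_pq h0 h1
      have hsp : 0 < s := sqrt_pq_pos h0 h1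
      have e3 : p * ((1 - p) / s) ^ 3 + (1 - p) * (-p / s) ^ 3 = (1 - 2 * p) / s := by
        field_simp
        rw [show s ^ 2 = p * (1 - p) from hs]; ring
      have e4 : p * ((1 - p) / s) ^ 4 + (1 - p) * (-p / s) ^ 4
          = (1 - 3 * (p * (1 - p))) / (p * (1 - p)) := by
        rw [div_pow, div_pow, show s ^ 4 = (s ^ 2) ^ 2 by ring, hs]
        field_simp
        ring
      have e1 : p * ((1 - p) / s) + (1 - p) * (-p / s) = 0 := by ring
      have e2 : p * ((1 - p) / s) ^ 2 + (1 - p) * (-p / s) ^ 2 = 1 := by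
        field_simp
        rw [hs]; ring
      have hexp : p * (a + ch p true * b) ^ 4 + (1 - p) * (a + ch p false * b) ^ 4
          = a ^ 4 + 4 * a ^ 3 * b * 0 + 6 * a ^ 2 * b ^ 2 * 1
            + 4 * a * b ^ 3 * ((1 - 2 * p) / s)
            + b ^ 4 * ((1 - 3 * (p * (1 - p))) / (p * (1 - p))) := by
        simp only [ch, if_true, Bool.false_eq_true, if_false, ← hsdef]
        linear_combination 4 * a ^ 3 * b * e1 + 6 * a ^ 2 * b ^ 2 * e2 + 4 * a * b ^ 3 * e3
          + b ^ 4 * e4
      have hm3 : ((1 - 2 * p) / s) ^ 2 ≤ 1 / (p * (1 - p)) := by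
        rw [div_pow, hs, div_le_div_iff_of_pos_right hpq]; nlinarith
      have hm4 : (1 - 3 * (p * (1 - p))) / (p * (1 - p)) ≤ 1 / (p * (1 - p)) := by
        rw [div_le_div_iff_of_pos_right hpq]; linarith
      have hBhalf : B / 2 = 8 * (1 / (p * (1 - p))) := by rw [hBdef]; ring
      have hinv : 0 ≤ 1 / (p * (1 - p)) := by positivity
      rw [hexp, hBhalf]
      nlinarith [sq_nonneg (a * b - b ^ 2 * ((1 - 2 * p) / s)),
        mul_le_mul_of_nonneg_left hm3 (sq_nonneg (b ^ 2)),
        mul_le_mul_of_nonneg_left hm4 (sq_nonneg (b ^ 2)), mul_nonneg (sq_nonneg (b ^ 2)) hinv]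
    have hstep : Ex p (fun x => (∑ S ∈ (insert e A).powerset, c S * chi p S x) ^ 4)
        ≤ Ex p (fun x => g0 x ^ 4) + 8 * Ex p (fun x => g0 x ^ 2 * g1 x ^ 2)
          + B / 2 * Ex p (fun x => g1 x ^ 4) := by
      rw [← Ex_const_mul, ← Ex_const_mul, ← Ex_add, ← Ex_add, Ex_split p e]
      refine Ex_mono h0.le h1.le fun x => ?_
      simp only [hg, hg0, hg1, hind, Function.update_self]
      exact hpt _ _
    have hcs := Ex_sq_le (p := p) h0.le h1.le (fun x => g0 x ^ 2) (fun x => g1 x ^ 2)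
    have q4 : ∀ g : (ι → Bool) → ℝ, (fun x => (g x ^ 2) ^ 2) = fun x => g x ^ 4 := fun g => by
      funext x; ring
    rw [q4 g0, q4 g1] at hcs
    set X := Ex p (fun x => g0 x ^ 2 * g1 x ^ 2)
    set a := ∑ S ∈ A.powerset, c S ^ 2
    set b := ∑ S ∈ A.powerset, c1 S ^ 2
    have ha : 0 ≤ a := sum_nonneg fun _ _ => sq_nonneg _
    have hb : 0 ≤ b := sum_nonneg fun _ _ => sq_nonneg _
    have hpow : 0 ≤ B ^ D := pow_nonneg (by linarith) _
    have p0 : 0 ≤ Ex p (fun x => g0 x ^ 4) := Ex_nonneg h0.le h1.le fun x => by positivity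
    have p1 : 0 ≤ Ex p (fun x => g1 x ^ 4) := Ex_nonneg h0.le h1.le fun x => by positivity
    have hX : 4 * X ≤ B ^ D * a * b := by
      have : 16 * X ^ 2 ≤ (B ^ D * a * b) ^ 2 := by
        calc 16 * X ^ 2 ≤ 16 * (Ex p (fun x => g0 x ^ 4) * Ex p (fun x => g1 x ^ 4)) := by
              linarith
          _ ≤ Ex p (fun x => g0 x ^ 4) * (B * Ex p (fun x => g1 x ^ 4)) := by
              nlinarith [mul_nonneg p0 p1]
          _ ≤ (B ^ D * a ^ 2) * (B ^ D * b ^ 2) :=
              mul_le_mul i0 i1 (mul_nonneg (by linarith) p1) (by positivity)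
          _ = _ := by ring
      nlinarith [mul_nonneg (mul_nonneg hpow ha) hb]
    rw [hsq]
    refine hstep.trans ?_
    nlinarith [i0, i1, hX, mul_nonneg hpow (sq_nonneg b)]

/-- Level inequality for `0`-`1` valued functions. -/
theorem level_bound (h0 : 0 < p) (h1 : p < 1) (h : (ι → Bool) → ℝ)
    (hh : ∀ x, h x = 0 ∨ h x = 1) (D : ℕ) :
    ∑ S : Finset ι with S.card ≤ D, coef p h S ^ 2
      ≤ (16 / (p * (1 - p))) ^ D * (Ex p h * Real.sqrt (Ex p h)) := by
  set B := (16 / (p * (1 - p))) ^ D with hB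
  have hpq : 0 < p * (1 - p) := by nlinarith
  have hB1 : 1 ≤ B := one_le_pow₀ (by
    rw [le_div_iff₀ hpq]; nlinarith [sq_nonneg (p - 1 / 2)])
  set c : Finset ι → ℝ := fun S => if S.card ≤ D then coef p h S else 0 with hc
  set g : (ι → Bool) → ℝ := fun x => ∑ S ∈ (Finset.univ : Finset ι).powerset, c S * chi p S x
    with hg
  set G := ∑ S : Finset ι with S.card ≤ D, coef p h S ^ 2 with hG
  set π := Ex p h with hπ
  have hsum : ∑ S ∈ (Finset.univ : Finset ι).powerset, c S ^ 2 = G := by
    rw [powerset_univ, hG, sum_filter]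
    exact sum_congr rfl fun S _ => by by_cases hS : S.card ≤ D <;> simp [hc, hS]
  have h4 : Ex p (fun x => g x ^ 4) ≤ B * G ^ 2 := by
    rw [← hsum]
    exact fourth_moment h0 h1 _ D c fun S hS => if_neg (by omega)
  have hGe : G = Ex p (fun x => h x * g x) := by
    rw [← hsum, hg]
    simp only [Finset.mul_sum]
    rw [Ex_sum]
    refine sum_congr rfl fun S _ => ?_
    rw [show (fun x => h x * (c S * chi p S x)) = fun x => c S * (h x * chi p S x) by
      funext x; ring, Ex_const_mul]
    by_cases hS : S.card ≤ D <;> simp [hc, hS, coef, sq]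
  have hsq : ∀ x, h x ^ 2 = h x := fun x => by rcases hh x with e | e <;> simp [e]
  have hπ0 : 0 ≤ π := Ex_nonneg h0.le h1.le fun x => by
    rcases hh x with e | e <;> simp [e]
  have c1 : G ^ 2 ≤ π * Ex p (fun x => h x * g x ^ 2) := by
    have := Ex_sq_le (p := p) h0.le h1.le h (fun x => h x * g x)
    simp only [mul_pow, ← mul_assoc, hsq] at this
    have e : (fun x => h x * h x * g x) = fun x => h x * g x := by
      funext x; rw [← sq, hsq]
    rw [e, ← hGe] at this
    exact this
  have c2 : Ex p (fun x => h x * g x ^ 2) ^ 2 ≤ π * (B * G ^ 2) := by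
    have := Ex_sq_le (p := p) h0.le h1.le h (fun x => g x ^ 2)
    simp only [hsq, ← pow_mul] at this
    exact this.trans (mul_le_mul_of_nonneg_left h4 hπ0)
  have hG0 : 0 ≤ G := sum_nonneg fun _ _ => sq_nonneg _
  have h4' : G ^ 4 ≤ π ^ 3 * B * G ^ 2 := by
    calc G ^ 4 = (G ^ 2) ^ 2 := by ring
      _ ≤ (π * Ex p (fun x => h x * g x ^ 2)) ^ 2 := pow_le_pow_left₀ (sq_nonneg _) c1 2
      _ = π ^ 2 * Ex p (fun x => h x * g x ^ 2) ^ 2 := by ring
      _ ≤ π ^ 2 * (π * (B * G ^ 2)) := mul_le_mul_of_nonneg_left c2 (sq_nonneg _)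
      _ = _ := by ring
  rcases hG0.eq_or_lt' with h | hpos
  · rw [h]; positivity
  have h2 : G ^ 2 ≤ π ^ 3 * B := le_of_mul_le_mul_right (by linarith) (pow_pos hpos 2)
  have hr : (B * (π * Real.sqrt π)) ^ 2 = B ^ 2 * π ^ 3 := by
    rw [mul_pow, mul_pow, Real.sq_sqrt hπ0]; ring
  have : G ^ 2 ≤ (B * (π * Real.sqrt π)) ^ 2 := by
    rw [hr]; nlinarith [mul_nonneg (pow_nonneg hπ0 3) (mul_nonneg (by linarith : (0:ℝ) ≤ B) (by linarith : (0:ℝ) ≤ B - 1))]
  exact pow_le_pow_iff_left₀ hG0 (by positivity) two_ne_zero |>.1 this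

theorem coef_insert (h0 : 0 < p) (h1 : p < 1) (f : (ι → Bool) → ℝ) {S : Finset ι} {e : ι}
    (he : e ∉ S) :
    coef p f (insert e S) = Real.sqrt (p * (1 - p)) * coef p (der e f) S := by
  have hs := sq_sqrt_pq h0 h1
  have hp := sqrt_pq_pos h0 h1
  rw [coef, coef, ← Ex_const_mul, Ex_split p e]
  congr 1
  funext x
  rw [chi_insert he, chi_insert he, Function.update_self, Function.update_self,
    chi_update_not_mem he, chi_update_not_mem he]
  simp only [der, ch, if_true, Bool.false_eq_true, if_false]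
  field_simp
  rw [hs]; ring

theorem coef_der_of_mem (h0 : 0 < p) (h1 : p < 1) (f : (ι → Bool) → ℝ) {S : Finset ι} {e : ι}
    (he : e ∈ S) : coef p (der e f) S = 0 := by
  have hp := sqrt_pq_pos h0 h1
  obtain ⟨T, hT, rfl⟩ : ∃ T, e ∉ T ∧ insert e T = S :=
    ⟨S.erase e, notMem_erase e S, insert_erase he⟩
  rw [coef, Ex_split p e, ← Ex_const p (0 : ℝ) (ι := ι)]
  congr 1
  funext x
  rw [chi_insert hT, chi_insert hT, Function.update_self, Function.update_self,
    chi_update_not_mem hT, chi_update_not_mem hT]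
  simp only [der, ch, if_true, Bool.false_eq_true, if_false, Function.update_idem]
  ring

/-- Summing squared coefficients of a derivative. -/
theorem sum_coef_mem (h0 : 0 < p) (h1 : p < 1) (f : (ι → Bool) → ℝ) (e : ι)
    (P : Finset ι → Prop) [DecidablePred P] :
    ∑ S : Finset ι with e ∈ S ∧ P S, coef p f S ^ 2
      = p * (1 - p) * ∑ T : Finset ι with e ∉ T ∧ P (insert e T), coef p (der e f) T ^ 2 := by
  rw [mul_sum]
  symm
  refine sum_bij' (fun T _ => insert e T) (fun S _ => S.erase e) ?_ ?_ ?_ ?_ ?_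
  · intro T hT; simp only [mem_filter, mem_univ, true_and] at hT ⊢
    exact ⟨mem_insert_self _ _, hT.2⟩
  · intro S hS; simp only [mem_filter, mem_univ, true_and] at hS ⊢
    exact ⟨notMem_erase _ _, by rw [insert_erase hS.1]; exact hS.2⟩
  · intro T hT; simp only [mem_filter, mem_univ, true_and] at hT
    exact erase_insert hT.1
  · intro S hS; simp only [mem_filter, mem_univ, true_and] at hS
    exact insert_erase hS.1
  · intro T hT; simp only [mem_filter, mem_univ, true_and] at hT
    rw [coef_insert h0 h1 f hT.1, mul_pow, sq_sqrt_pq h0 h1]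

theorem influence_eq (h0 : 0 < p) (h1 : p < 1) (f : (ι → Bool) → ℝ) (e : ι)
    (hd : ∀ x, der e f x = 0 ∨ der e f x = 1) :
    ∑ S : Finset ι with e ∈ S, coef p f S ^ 2 = p * (1 - p) * Ex p (der e f) := by
  classical
  have h := sum_coef_mem h0 h1 f e (fun _ => True)
  simp only [and_true] at h
  rw [h, show Ex p (der e f) = Ex p (fun x => der e f x ^ 2) from
    congrArg (Ex p) (funext fun x => by rcases hd x with d | d <;> simp [d]), ← parseval h0 h1]
  congr 1
  refine sum_subset (subset_univ _) fun T _ hT => ?_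
  simp only [mem_filter, mem_univ, true_and, not_not] at hT
  simp [coef_der_of_mem h0 h1 f hT]

/-- Total influence in Fourier form. -/
theorem total_influence (h0 : 0 < p) (h1 : p < 1) (f : (ι → Bool) → ℝ)
    (hd : ∀ e x, der e f x = 0 ∨ der e f x = 1) :
    ∑ S : Finset ι, (S.card : ℝ) * coef p f S ^ 2 = p * (1 - p) * ∑ e, Ex p (der e f) := by
  rw [mul_sum]
  simp only [← influence_eq h0 h1 f _ (hd _), sum_filter]
  rw [sum_comm]
  refine sum_congr rfl fun S _ => ?_
  rw [← sum_filter, filter_mem_eq_inter, univ_inter, sum_const, nsmul_eq_mul]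

end Vale.Agent.P063
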