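import Vale.Agent.P063.Restrict
import Mathlib.Data.Finset.Powerset
import Mathlib.Data.Fintype.Powerset
import Mathlib.Logic.Equiv.Finset

/-!
The influence inequality for invariant increasing hypergraph functions.
-/

open Finset

namespace Vale.Agent.P063

/-- Possible edges of an `r`-uniform hypergraph on `Fin n`. -/
abbrev Edge (n r : ℕ) : Type := {s : Finset (Fin n) // s.card = r}

/-- The action of a vertex permutation on edges. -/
def edgeMap {n : ℕ} (r : ℕ) (σ : Equiv.Perm (Fin n)) : Edge n r ≃ Edge n r :=
  (Equiv.finsetCongr σ).subtypeEquiv fun s => by simp [Equiv.finsetCongr_apply]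

variable {n r : ℕ}

theorem mem_edgeMap (σ : Equiv.Perm (Fin n)) (e : Edge n r) (w : Fin n) :
    w ∈ (edgeMap r σ e).1 ↔ σ.symm w ∈ e.1 := by
  simp [edgeMap, Equiv.finsetCongr_apply, Finset.mem_map_equiv]

/-- Edges meeting a vertex set. -/
def alive (U : Finset (Fin n)) : Finset (Edge n r) := univ.filter fun e => ∃ u ∈ e.1, u ∈ U

theorem mem_alive {U : Finset (Fin n)} {e : Edge n r} : e ∈ alive U ↔ ∃ u ∈ e.1, u ∈ U := by
  simp [alive]

/-- Vertices covered by a set of edges. -/
def vset (S : Finset (Edge n r)) : Finset (Fin n) := S.biUnion fun e => e.1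

/-- `f` is an increasing, vertex-invariant, `0`-`1` valued function. -/
structure GoodFun (f : (Edge n r → Bool) → ℝ) : Prop where
  zero_one : ∀ x, f x = 0 ∨ f x = 1
  mono : ∀ x y : Edge n r → Bool, (∀ e, x e = true → y e = true) → f x ≤ f y
  inv : ∀ (σ : Equiv.Perm (Fin n)) x, f (x ∘ edgeMap r σ) = f x

variable {f : (Edge n r → Bool) → ℝ} {p : ℝ}

theorem GoodFun.der_01 (hf : GoodFun f) (e : Edge n r) (x : Edge n r → Bool) :
    der e f x = 0 ∨ der e f x = 1 := by
  have hle : f (Function.update x e false) ≤ f (Function.update x e true) := by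
    refine hf.mono _ _ fun j hj => ?_
    by_cases hje : j = e
    · subst hje; simp
    · rwa [Function.update_of_ne hje] at hj ⊢
  rcases hf.zero_one (Function.update x e false) with a | a <;>
    rcases hf.zero_one (Function.update x e true) with b | b <;>
    simp [der, a, b] at hle ⊢
  linarith

theorem GoodFun.restr_der_01 (hf : GoodFun f) (A : Finset (Edge n r)) (z : Edge n r → Bool)
    (e : Edge n r) (x : Edge n r → Bool) :
    der e (restr A f z) x = 0 ∨ der e (restr A f z) x = 1 := by
  by_cases he : e ∈ A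
  · have h : ∀ b, mix A (Function.update x e b) z = Function.update (mix A x z) e b := by
      intro b; funext j
      by_cases hje : j = e
      · subst hje; simp [mix, he]
      · simp [mix, hje]
    simp only [der, restr, h]
    exact hf.der_01 e (mix A x z)
  · left
    have h : ∀ b, mix A (Function.update x e b) z = mix A x z := by
      intro b; funext j
      by_cases hje : j = e
      · subst hje; simp [mix, he]
      · simp [mix, hje]
    simp [der, restr, h]

theorem swap_fix {U : Finset (Fin n)} {u v : Fin n} (hu : u ∈ U) (hv : v ∈ U) {e : Edge n r}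
    (he : e ∉ alive U) : edgeMap r (Equiv.swap u v) e = e := by
  apply Subtype.ext
  ext w
  have h : ∀ a ∈ e.1, a ∉ U := fun a ha ha' => he (mem_alive.2 ⟨a, ha, ha'⟩)
  rw [mem_edgeMap, Equiv.symm_swap]
  by_cases hwu : w = u
  · subst hwu
    rw [Equiv.swap_apply_left]
    exact ⟨fun h' => absurd hv (h v h'), fun h' => absurd hu (h w h')⟩
  by_cases hwv : w = v
  · subst hwv
    rw [Equiv.swap_apply_right]
    exact ⟨fun h' => absurd hu (h u h'), fun h' => absurd hv (h w h')⟩
  rw [Equiv.swap_apply_of_ne_of_ne hwu hwv]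

theorem GoodFun.restr_swap (hf : GoodFun f) {U : Finset (Fin n)} {u v : Fin n} (hu : u ∈ U)
    (hv : v ∈ U) (z x : Edge n r → Bool) :
    restr (alive U) f z (x ∘ edgeMap r (Equiv.swap u v)) = restr (alive U) f z x := by
  set τ := edgeMap r (Equiv.swap u v) with hτ
  have hiff : ∀ e, τ e ∈ alive U ↔ e ∈ alive U := by
    intro e
    by_cases he : e ∈ alive U
    · simp only [he, iff_true]
      by_contra hne
      have := swap_fix hu hv hne
      rw [← hτ] at this
      have h2 : τ (τ e) = e := by
        apply Subtype.ext; ext w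
        simp [τ, mem_edgeMap]
      rw [h2] at this
      exact hne (this ▸ he)
    · rw [hτ, swap_fix hu hv he]
  have : mix (alive U) (x ∘ τ) z = mix (alive U) x z ∘ τ := by
    funext e
    by_cases he : e ∈ alive U
    · simp [mix, he, hiff e]
    · have := swap_fix hu hv he
      rw [← hτ] at this
      simp [mix, he, this]
  simp only [restr, this]
  exact hf.inv _ _

theorem GoodFun.influence_le (hf : GoodFun f) (h0 : 0 ≤ p) (h1 : p ≤ 1) {U : Finset (Fin n)}
    (z : Edge n r → Bool) (e : Edge n r) :
    ((U.card : ℝ) - r) * Ex p (der e (restr (alive U) f z))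
      ≤ ∑ d : Edge n r, Ex p (der d (restr (alive U) f z)) := by
  set g := restr (alive U) f z with hg
  have nn : ∀ d, 0 ≤ Ex p (der d g) := fun d => Ex_nonneg h0 h1 fun x => by
    rcases hf.restr_der_01 (alive U) z d x with h | h <;> rw [← hg] at h <;> simp [h]
  by_cases he : e ∈ alive U
  · obtain ⟨u, hue, huU⟩ := mem_alive.1 he
    have heq : ∀ v ∈ U, Ex p (der (edgeMap r (Equiv.swap u v) e) g) = Ex p (der e g) := by
      intro v hv
      set τ := edgeMap r (Equiv.swap u v) with hτ
      have : der (τ e) g = fun x => der e g (x ∘ τ) := by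
        funext x
        have hup : ∀ b, Function.update (x ∘ τ) e b = Function.update x (τ e) b ∘ τ := by
          intro b; funext j
          by_cases hj : j = e
          · subst hj; simp
          · simp [hj, τ.injective.ne hj]
        simp only [der, hup]
        rw [hg, hτ, hf.restr_swap huU hv, hf.restr_swap huU hv]
      rw [this, Ex_perm]
    have hinj : Set.InjOn (fun v => edgeMap r (Equiv.swap u v) e) ↑(U \ e.1) := by
      intro v hv w hw h
      simp only [coe_sdiff, Set.mem_diff, mem_coe] at hv hw
      have hmem : v ∈ (edgeMap r (Equiv.swap u w) e).1 := by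
        simp only at h
        rw [← h, mem_edgeMap]; simpa using hue
      rw [mem_edgeMap, Equiv.symm_swap] at hmem
      by_contra hvw
      rw [Equiv.swap_apply_of_ne_of_ne (fun hh => hv.2 (by rw [hh]; exact hue)) hvw] at hmem
      exact hv.2 hmem
    have hcard : (U.card : ℝ) - r ≤ ((U \ e.1).card : ℝ) := by
      have h := card_sdiff_add_card_inter U e.1
      have h' : (U ∩ e.1).card ≤ r := (card_le_card inter_subset_right).trans e.2.le
      have : (U.card : ℝ) ≤ ((U \ e.1).card : ℝ) + r := by exact_mod_cast (by omega)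
      linarith
    calc ((U.card : ℝ) - r) * Ex p (der e g) ≤ ((U \ e.1).card : ℝ) * Ex p (der e g) :=
          mul_le_mul_of_nonneg_right hcard (nn e)
      _ = ∑ v ∈ U \ e.1, Ex p (der (edgeMap r (Equiv.swap u v) e) g) := by
          have hc : ∀ v ∈ U \ e.1,
              Ex p (der (edgeMap r (Equiv.swap u v) e) g) = Ex p (der e g) :=
            fun v hv => heq v (mem_sdiff.1 hv).1
          rw [sum_congr rfl hc, sum_const, nsmul_eq_mul]
      _ = ∑ d ∈ (U \ e.1).image (fun v => edgeMap r (Equiv.swap u v) e), Ex p (der d g) :=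
          (sum_image (f := fun d => Ex p (der d g)) hinj).symm
      _ ≤ _ := sum_le_sum_of_subset_of_nonneg (subset_univ _) fun d _ _ => nn d
  · have h : ∀ x b, mix (alive U) (Function.update x e b) z = mix (alive U) x z := by
      intro x b; funext j
      by_cases hje : j = e
      · subst hje; simp [mix, he]
      · simp [mix, hje]
    have : der e g = fun _ => (0 : ℝ) := by
      funext x; simp [der, hg, restr, h]
    rw [this, Ex_const, mul_zero]
    exact sum_nonneg fun d _ => nn d

/-- The low levels of a restriction carry little mass. -/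
theorem GoodFun.low_bound (hf : GoodFun f) (h0 : 0 < p) (h1 : p < 1) {U : Finset (Fin n)}
    {D : ℕ} (hD : 1 ≤ D) {κ : ℝ} (hκ : 1 ≤ κ) (hU : κ ^ 4 ≤ (U.card : ℝ) - r) :
    ∑ S : Finset (Edge n r),
        (if 1 ≤ (S ∩ alive U).card ∧ (S ∩ alive U).card ≤ D then (1 : ℝ) else 0) * coef p f S ^ 2
      ≤ 2 * (16 / (p * (1 - p))) ^ D / κ *
        ∑ S : Finset (Edge n r), ((S ∩ alive U).card : ℝ) * coef p f S ^ 2 := by
  set A := alive (r := r) U with hA
  set B := (16 / (p * (1 - p))) ^ D with hB
  have hpq : 0 < p * (1 - p) := by nlinarith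
  rw [← Ex_weight_restr h0 h1 A f fun T => if 1 ≤ T.card ∧ T.card ≤ D then (1 : ℝ) else 0,
    ← Ex_weight_restr h0 h1 A f fun T => (T.card : ℝ), ← Ex_const_mul]
  refine Ex_mono h0.le h1.le fun z => ?_
  set g := restr A f z with hg
  have hd : ∀ e x, der e g x = 0 ∨ der e g x = 1 := fun e x => hf.restr_der_01 A z e x
  rw [total_influence h0 h1 g hd]
  set I := ∑ e, Ex p (der e g) with hI
  set W := ∑ T : Finset (Edge n r),
    (if 1 ≤ T.card ∧ T.card ≤ D then (1 : ℝ) else 0) * coef p g T ^ 2 with hW
  have nn : ∀ e, 0 ≤ Ex p (der e g) := fun e => Ex_nonneg h0.le h1.le fun x => by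
    rcases hd e x with h | h <;> simp [h]
  have hI0 : 0 ≤ I := sum_nonneg fun e _ => nn e
  have hB16 : 16 / (p * (1 - p)) ≤ B := le_self_pow₀ (by
    rw [le_div_iff₀ hpq]; nlinarith [sq_nonneg (p - 1 / 2)]) (by omega)
  have hκ0 : 0 < κ := by linarith
  have hW1 : W ≤ 1 := by
    calc W ≤ ∑ T : Finset (Edge n r), coef p g T ^ 2 :=
          sum_le_sum fun T _ => mul_le_of_le_one_left (sq_nonneg _) (by split_ifs <;> norm_num)
      _ = Ex p (fun x => g x ^ 2) := parseval h0 h1 g
      _ ≤ Ex p (fun _ => (1 : ℝ)) := Ex_mono h0.le h1.le fun x => by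
          rcases hf.zero_one (mix A x z) with h | h <;> simp [hg, restr, h]
      _ = 1 := Ex_const p 1
  rcases le_or_gt (κ ^ 2) I with hbig | hsmall
  · have h1' : 1 ≤ B * (p * (1 - p)) := by
      have := mul_le_mul_of_nonneg_right hB16 hpq.le
      rw [div_mul_cancel₀ _ hpq.ne'] at this
      linarith
    calc W ≤ 1 := hW1
      _ ≤ 2 * (B * (p * (1 - p))) * (I / κ ^ 2) := by
          have : 1 ≤ I / κ ^ 2 := by rw [le_div_iff₀ (by positivity)]; linarith
          nlinarith [mul_le_mul h1' this zero_le_one (by positivity)]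
      _ ≤ 2 * B / κ * (p * (1 - p) * I) := by
          have : I / κ ^ 2 ≤ I / κ := by
            gcongr; nlinarith
          calc 2 * (B * (p * (1 - p))) * (I / κ ^ 2) ≤ 2 * (B * (p * (1 - p))) * (I / κ) :=
                mul_le_mul_of_nonneg_left this (by positivity)
            _ = _ := by ring
  · have hW2 : W ≤ ∑ e, ∑ T : Finset (Edge n r) with e ∈ T ∧ T.card ≤ D, coef p g T ^ 2 := by
      calc W ≤ ∑ T : Finset (Edge n r), ∑ e, if e ∈ T ∧ T.card ≤ D then coef p g T ^ 2 else 0 := by
            refine sum_le_sum fun T _ => ?_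
            by_cases hT : 1 ≤ T.card ∧ T.card ≤ D
            · obtain ⟨e, he⟩ := card_pos.1 hT.1
              rw [if_pos hT, one_mul]
              refine le_trans (le_of_eq ?_) (single_le_sum (fun d _ => ?_) (mem_univ e))
              · rw [if_pos ⟨he, hT.2⟩]
              · split_ifs <;> positivity
            · rw [if_neg hT, zero_mul]
              exact sum_nonneg fun d _ => by split_ifs <;> positivity
        _ = _ := by rw [sum_comm]; simp only [sum_filter]
    have he : ∀ e, ∑ T : Finset (Edge n r) with e ∈ T ∧ T.card ≤ D, coef p g T ^ 2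
        ≤ p * (1 - p) * (B * (Ex p (der e g) * κ⁻¹)) := by
      intro e
      rw [sum_coef_mem h0 h1 g e fun T => T.card ≤ D]
      refine mul_le_mul_of_nonneg_left ?_ hpq.le
      refine le_trans ?_ ((level_bound h0 h1 (der e g) (hd e) D).trans
        (mul_le_mul_of_nonneg_left (mul_le_mul_of_nonneg_left ?_ (nn e)) (by positivity)))
      · refine sum_le_sum_of_subset_of_nonneg ?_ fun _ _ _ => sq_nonneg _
        intro T hT
        simp only [mem_filter, mem_univ, true_and] at hT ⊢
        rw [card_insert_of_notMem hT.1] at hT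
        omega
      · rw [Real.sqrt_le_iff]
        refine ⟨by positivity, ?_⟩
        have := hf.influence_le h0.le h1.le (U := U) z e
        rw [← hA, ← hg, ← hI] at this
        have hpos : 0 < κ ^ 2 := by positivity
        have hle : κ ^ 4 * Ex p (der e g) ≤ κ ^ 2 :=
          ((mul_le_mul_of_nonneg_right hU (nn e)).trans this).trans hsmall.le
        rw [inv_pow, ← one_div, le_div_iff₀ hpos]
        by_contra hc
        have := mul_lt_mul_of_pos_left (not_le.1 hc) hpos
        nlinarith
    calc W ≤ ∑ e, p * (1 - p) * (B * (Ex p (der e g) * κ⁻¹)) :=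
          hW2.trans (sum_le_sum fun e _ => he e)
      _ = B / κ * (p * (1 - p) * I) := by
          rw [← mul_sum, ← mul_sum, ← sum_mul, hI]; ring
      _ ≤ 2 * B / κ * (p * (1 - p) * I) := by gcongr; nlinarith [pow_pos (show (0:ℝ) < 16 / (p * (1-p)) by positivity) D]

end Vale.Agent.P063
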