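import Vale.Agent.P063.Cube

/-!
Random restrictions to a set of coordinates, kept as functions on the whole cube.
-/

open Finset

namespace Vale.Agent.P063

variable {ι : Type*} [Fintype ι] [DecidableEq ι]

/-- Take coordinates in `A` from `x`, the others from `z`. -/
def mix (A : Finset ι) (x z : ι → Bool) : ι → Bool := fun e => if e ∈ A then x e else z e

/-- The restriction of `f` to `A` with the other coordinates fixed to `z`. -/
def restr (A : Finset ι) (f : (ι → Bool) → ℝ) (z : ι → Bool) : (ι → Bool) → ℝ :=
  fun x => f (mix A x z)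

variable {p : ℝ}

theorem chi_mix (A S : Finset ι) (x z : ι → Bool) :
    chi p S (mix A x z) = chi p (S ∩ A) x * chi p (S \ A) z := by
  simp only [chi]
  rw [← prod_inter_mul_prod_diff S A (fun e => ch p (mix A x z e))]
  congr 1
  · exact prod_congr rfl fun e he => by simp [mix, (mem_inter.1 he).2]
  · exact prod_congr rfl fun e he => by simp [mix, (mem_sdiff.1 he).2]

theorem coef_restr (h0 : 0 < p) (h1 : p < 1) (A : Finset ι) (f : (ι → Bool) → ℝ) (z : ι → Bool)
    (T : Finset ι) :
    coef p (restr A f z) T
      = ∑ S : Finset ι with S ∩ A = T, coef p f S * chi p (S \ A) z := by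
  rw [coef, sum_filter]
  calc Ex p (fun x => restr A f z x * chi p T x)
      = Ex p (fun x => ∑ S : Finset ι,
          coef p f S * chi p (S \ A) z * (chi p (S ∩ A) x * chi p T x)) := by
        congr 1
        funext x
        rw [restr, ← expansion h0 h1 f (mix A x z), Finset.sum_mul]
        exact sum_congr rfl fun S _ => by rw [chi_mix]; ring
    _ = _ := by
        rw [Ex_sum]
        refine sum_congr rfl fun S _ => ?_
        rw [Ex_const_mul, orth h0 h1]
        by_cases h : S ∩ A = T <;> simp [h]

theorem Ex_coef_restr_sq (h0 : 0 < p) (h1 : p < 1) (A : Finset ι) (f : (ι → Bool) → ℝ)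
    (T : Finset ι) :
    Ex p (fun z => coef p (restr A f z) T ^ 2)
      = ∑ S : Finset ι with S ∩ A = T, coef p f S ^ 2 := by
  simp only [coef_restr h0 h1, sq, Finset.sum_mul, Finset.mul_sum]
  rw [Ex_sum]
  refine sum_congr rfl fun S hS => ?_
  rw [Ex_sum]
  calc ∑ R ∈ univ.filter (fun R : Finset ι => R ∩ A = T),
        Ex p (fun z => coef p f R * chi p (R \ A) z * (coef p f S * chi p (S \ A) z))
      = ∑ R ∈ univ.filter (fun R : Finset ι => R ∩ A = T),
          coef p f S * coef p f R * (if S = R then 1 else 0) := by
        refine sum_congr rfl fun R hR => ?_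
        rw [show (fun z => coef p f R * chi p (R \ A) z * (coef p f S * chi p (S \ A) z))
            = fun z => coef p f S * coef p f R * (chi p (S \ A) z * chi p (R \ A) z) by
          funext z; ring, Ex_const_mul, orth h0 h1]
        congr 1
        refine if_congr ⟨fun h => ?_, fun h => by rw [h]⟩ rfl rfl
        have hS' := (mem_filter.1 hS).2
        have hR' := (mem_filter.1 hR).2
        rw [← sdiff_union_inter S A, ← sdiff_union_inter R A, h, hS', hR']
    _ = coef p f S * coef p f S := by simp [(mem_filter.1 hS).2]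

/-- Averaged weights of the restriction. -/
theorem Ex_weight_restr (h0 : 0 < p) (h1 : p < 1) (A : Finset ι) (f : (ι → Bool) → ℝ)
    (c : Finset ι → ℝ) :
    Ex p (fun z => ∑ T : Finset ι, c T * coef p (restr A f z) T ^ 2)
      = ∑ S : Finset ι, c (S ∩ A) * coef p f S ^ 2 := by
  rw [Ex_sum]
  simp only [Ex_const_mul, Ex_coef_restr_sq h0 h1, Finset.mul_sum]
  rw [← sum_fiberwise univ (fun S : Finset ι => S ∩ A) (fun S => c (S ∩ A) * coef p f S ^ 2)]
  refine sum_congr rfl fun T _ => sum_congr rfl fun S hS => ?_
  rw [(mem_filter.1 hS).2]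

end Vale.Agent.P063
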