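import Vale.Agent.P063.Averaging
import Mathlib.Analysis.SpecialFunctions.Pow.Real
import Mathlib.Analysis.Complex.ExponentialBounds
import Mathlib.Analysis.Calculus.Deriv.MeanValue
import Mathlib.Analysis.Calculus.Deriv.Mul

/-!
The Margulis-Russo formula and the bound on the threshold width.
-/

open Finset

namespace Vale.Agent.P063

/-- The probability that the random hypergraph at density `p` lies in `P`. -/
noncomputable def prob {n r : ℕ} (p : ℝ) (P : Set (Edge n r → Bool)) : ℝ :=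
  open Classical in
  ∑ x : Edge n r → Bool, if x ∈ P then ∏ e, (if x e then p else 1 - p) else 0

/-- `p_a(P) = inf {p ∈ [0,1] : prob p P ≥ a}`. -/
noncomputable def pThreshold {n r : ℕ} (P : Set (Edge n r → Bool)) (a : ℝ) : ℝ :=
  sInf {p : ℝ | p ∈ Set.Icc 0 1 ∧ a ≤ prob p P}

/-- The property is increasing. -/
def IncreasingProp {n r : ℕ} (P : Set (Edge n r → Bool)) : Prop :=
  ∀ x y : Edge n r → Bool, (∀ e, x e = true → y e = true) → x ∈ P → y ∈ P

/-- The property is invariant under all vertex permutations. -/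
def InvariantProp {n r : ℕ} (P : Set (Edge n r → Bool)) : Prop :=
  ∀ (σ : Equiv.Perm (Fin n)) (x : Edge n r → Bool), x ∈ P → x ∘ edgeMap r σ ∈ P

variable {n r : ℕ}

/-- The indicator of a property. -/
noncomputable def ind (P : Set (Edge n r → Bool)) : (Edge n r → Bool) → ℝ :=
  P.indicator fun _ => 1

theorem goodFun_ind {P : Set (Edge n r → Bool)} (hmono : IncreasingProp P)
    (hinv : InvariantProp P) : GoodFun (ind P) := by
  classical
  refine ⟨fun x => ?_, fun x y h => ?_, fun σ x => ?_⟩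
  · by_cases hx : x ∈ P <;> simp [ind, hx]
  · by_cases hx : x ∈ P
    · simp [ind, hx, hmono x y h hx]
    · by_cases hy : y ∈ P <;> simp [ind, hx, hy]
  · have hiff : x ∘ edgeMap r σ ∈ P ↔ x ∈ P := by
      refine ⟨fun h => ?_, hinv σ x⟩
      have := hinv σ⁻¹ _ h
      convert this using 1
      funext e
      simp only [Function.comp_apply]
      congr 1
      apply Subtype.ext; ext w
      simp [mem_edgeMap, ← Equiv.Perm.inv_def]
    by_cases hx : x ∈ P <;> simp [ind, hx, hiff]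

theorem prob_eq_Ex (p : ℝ) (P : Set (Edge n r → Bool)) : prob p P = Ex p (ind P) := by
  classical
  unfold prob Ex
  refine sum_congr rfl fun x _ => ?_
  by_cases hx : x ∈ P <;> simp [ind, hx, mass, wt]

theorem variance_eq {p : ℝ} (h0 : 0 < p) (h1 : p < 1) {f : (Edge n r → Bool) → ℝ}
    (hf : GoodFun f) :
    ∑ S : Finset (Edge n r) with S.Nonempty, coef p f S ^ 2 = Ex p f * (1 - Ex p f) := by
  have hsq : (fun x => f x ^ 2) = f := funext fun x => by
    rcases hf.zero_one x with h | h <;> simp [h]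
  have hpar := parseval h0 h1 f
  rw [hsq] at hpar
  have hsplit := sum_filter_add_sum_filter_not (univ : Finset (Finset (Edge n r)))
    (fun S => S.Nonempty) (fun S => coef p f S ^ 2)
  have he : ∑ S : Finset (Edge n r) with ¬S.Nonempty, coef p f S ^ 2 = Ex p f ^ 2 := by
    have : (univ : Finset (Finset (Edge n r))).filter (fun S => ¬S.Nonempty) = {∅} := by
      ext S; simp [not_nonempty_iff_eq_empty]
    rw [this, sum_singleton, coef]
    simp [chi_empty]
  rw [he, hpar] at hsplit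
  linarith

theorem log_sq_bound {p : ℝ} (h0 : 0 < p) (h1 : p < 1) :
    1 ≤ Real.log (16 / (p * (1 - p))) ∧
      p * (1 - p) * Real.log (16 / (p * (1 - p))) ^ 2 ≤ 64 := by
  have hpq : 0 < p * (1 - p) := by nlinarith
  set y := 16 / (p * (1 - p)) with hy
  have hy64 : 64 ≤ y := by
    rw [hy, le_div_iff₀ hpq]; nlinarith [sq_nonneg (p - 1 / 2)]
  have hypos : 0 < y := by linarith
  constructor
  · rw [Real.le_log_iff_exp_le hypos]
    linarith [Real.exp_one_lt_d9]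
  · have hs : 0 < Real.sqrt y := Real.sqrt_pos.2 hypos
    have hl : Real.log y ≤ 2 * Real.sqrt y := by
      have := Real.log_le_sub_one_of_pos hs
      rw [Real.log_sqrt hypos.le] at this
      linarith
    have hl0 : 0 ≤ Real.log y := Real.log_nonneg (by linarith)
    calc p * (1 - p) * Real.log y ^ 2 ≤ p * (1 - p) * (2 * Real.sqrt y) ^ 2 := by
          exact mul_le_mul_of_nonneg_left (pow_le_pow_left₀ hl0 hl 2) hpq.le
      _ = 64 := by
          rw [mul_pow, Real.sq_sqrt hypos.le, hy]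
          have hq : (1 : ℝ) - p ≠ 0 := by linarith
          calc p * (1 - p) * (2 ^ 2 * (16 / (p * (1 - p))))
              = 64 * (p * (1 - p) / (p * (1 - p))) := by ring
            _ = 64 := by rw [div_self hpq.ne', mul_one]

/-- The constant of the influence inequality. -/
noncomputable def influenceConst (r : ℕ) : ℝ := 64 * (2 * r + 1) * 2 ^ r * (4 * r + 14) ^ 2

theorem base_ge {p : ℝ} (h0 : 0 < p) (h1 : p < 1) : 64 ≤ 16 / (p * (1 - p)) := by
  have hpq : 0 < p * (1 - p) := by nlinarith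
  rw [le_div_iff₀ hpq]; nlinarith [sq_nonneg (p - 1 / 2)]

/-- The auxiliary quantity `κ` is at most exponential in `D ℓ`. -/
theorem kappa_le {r : ℕ} {L D ℓ y : ℝ} {d : ℕ} (hy : 64 ≤ y) (hℓ : ℓ = Real.log y) (hℓ1 : 1 ≤ ℓ)
    (hd : 1 ≤ d) (hD : D = d) (hL : 1 ≤ L) (hLD : L ≤ D) :
    32 * L ^ (r + 1) * y ^ d ≤ Real.exp (((r : ℝ) + 3) * (D * ℓ)) ∧
      8 * L ≤ Real.exp (2 * (D * ℓ)) := by
  have e1 : y ^ d = Real.exp (D * ℓ) := by
    rw [hℓ, hD, Real.exp_nat_mul, Real.exp_log (by linarith)]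
  have e2 : 64 ≤ Real.exp (D * ℓ) := by
    rw [← e1]; exact hy.trans (le_self_pow₀ (by linarith) (by omega))
  have e3 : L ≤ Real.exp (D * ℓ) := by
    have := Real.add_one_le_exp (D * ℓ)
    nlinarith
  constructor
  · calc 32 * L ^ (r + 1) * y ^ d
        ≤ Real.exp (D * ℓ) * Real.exp (D * ℓ) ^ (r + 1) * Real.exp (D * ℓ) := by
          rw [e1]; gcongr; linarith
      _ = _ := by
          rw [← Real.exp_nat_mul, ← Real.exp_add, ← Real.exp_add]
          congr 1; push_cast; ring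
  · rw [two_mul, Real.exp_add]
    exact mul_le_mul (by linarith) e3 (by linarith) (Real.exp_nonneg _)

/-- Suitable parameters exist as soon as `(4 r + 14) ℓ ≤ log n`. -/
theorem exists_params {n r : ℕ} (hr : 2 ≤ r) (hn : 2 ≤ n) {p : ℝ} (h0 : 0 < p) (h1 : p < 1)
    (h : 1 ≤ Real.log n / ((4 * r + 14) * Real.log (16 / (p * (1 - p))))) :
    ∃ m L : ℕ, 1 ≤ m ∧ 1 ≤ L ∧ 2 * L * m ≤ n ∧ n ≤ 4 * L * m ∧
      (32 * (L : ℝ) ^ (r + 1) * (16 / (p * (1 - p))) ^ (L ^ (r - 1))) ^ 4 ≤ (m : ℝ) - r ∧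
      (Real.log n / ((4 * r + 14) * Real.log (16 / (p * (1 - p))))) ^ ((r : ℝ) / ((r : ℝ) - 1))
        ≤ 2 ^ r * (L : ℝ) ^ r := by
  obtain ⟨hℓ1, -⟩ := log_sq_bound h0 h1
  have hy := base_ge h0 h1
  generalize hyv : 16 / (p * (1 - p)) = y at h hℓ1 hy ⊢
  generalize hℓ : Real.log y = ℓ at h hℓ1 ⊢
  generalize hXv : Real.log n / ((4 * r + 14) * ℓ) = X at h ⊢
  have hr' : (2 : ℝ) ≤ r := by exact_mod_cast hr
  have hr1 : (0 : ℝ) < (r : ℝ) - 1 := by linarith
  generalize hYv : X ^ (1 / ((r : ℝ) - 1)) = Y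
  have hY1 : 1 ≤ Y := hYv ▸ Real.one_le_rpow h (by positivity)
  have hL1 : 1 ≤ ⌊Y⌋₊ := (Nat.one_le_floor_iff Y).2 hY1
  have hLY : (⌊Y⌋₊ : ℝ) ≤ Y := Nat.floor_le (by linarith)
  have hYL : Y ≤ 2 * (⌊Y⌋₊ : ℝ) := by
    have := Nat.lt_floor_add_one Y
    have : (1 : ℝ) ≤ (⌊Y⌋₊ : ℝ) := by exact_mod_cast hL1
    linarith
  generalize ⌊Y⌋₊ = L at hL1 hLY hYL
  have hLr : (1 : ℝ) ≤ L := by exact_mod_cast hL1
  have hYpow : ∀ k : ℕ, Y ^ k = X ^ ((k : ℝ) / ((r : ℝ) - 1)) := fun k => by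
    rw [← hYv, ← Real.rpow_natCast, ← Real.rpow_mul (by linarith)]
    congr 1; ring
  have hcl : 0 < (4 * (r : ℝ) + 14) * ℓ := by positivity
  have hDX : ((L : ℝ) ^ (r - 1)) ≤ X := by
    calc (L : ℝ) ^ (r - 1) ≤ Y ^ (r - 1) := pow_le_pow_left₀ (by positivity) hLY _
      _ = X := by
          rw [hYpow, Nat.cast_sub (by omega), Nat.cast_one, div_self hr1.ne', Real.rpow_one]
  have hcond : (4 * (r : ℝ) + 14) * ℓ * ((L : ℝ) ^ (r - 1)) ≤ Real.log n := by
    rw [← hXv, le_div_iff₀ hcl] at hDX; linarith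
  have hLD : (L : ℝ) ≤ (L : ℝ) ^ (r - 1) := le_self_pow₀ hLr (by omega)
  obtain ⟨hk, h8⟩ := kappa_le (r := r) (d := L ^ (r - 1)) hy hℓ.symm hℓ1
    (Nat.one_le_pow _ _ hL1) (Nat.cast_pow L (r - 1)).symm hLr hLD
  have hκ1 : 1 ≤ 32 * (L : ℝ) ^ (r + 1) * y ^ (L ^ (r - 1)) := by
    nlinarith [one_le_pow₀ hLr (n := r + 1),
      one_le_pow₀ (show (1 : ℝ) ≤ y by linarith) (n := L ^ (r - 1))]
  generalize hκv : 32 * (L : ℝ) ^ (r + 1) * y ^ (L ^ (r - 1)) = κ at hk hκ1
  have hD1 : 1 ≤ (L : ℝ) ^ (r - 1) := one_le_pow₀ hLr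
  generalize hDv : (L : ℝ) ^ (r - 1) = D at hk h8 hcond hD1
  have hE : κ ^ 4 ≤ Real.exp (((4 : ℕ) : ℝ) * (((r : ℝ) + 3) * (D * ℓ))) := by
    rw [Real.exp_nat_mul]
    exact pow_le_pow_left₀ (by linarith) hk 4
  have hrE : (r : ℝ) ≤ Real.exp (((4 : ℕ) : ℝ) * (((r : ℝ) + 3) * (D * ℓ))) := by
    refine le_trans ?_ (Real.add_one_le_exp _)
    push_cast
    nlinarith [mul_le_mul hD1 hℓ1 zero_le_one (by linarith)]
  have h4 : 4 * (L : ℝ) * (κ ^ 4 + r) ≤ n := by
    calc 4 * (L : ℝ) * (κ ^ 4 + r)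
        ≤ (8 * L) * Real.exp (((4 : ℕ) : ℝ) * (((r : ℝ) + 3) * (D * ℓ))) := by nlinarith
      _ ≤ Real.exp (2 * (D * ℓ)) * Real.exp (((4 : ℕ) : ℝ) * (((r : ℝ) + 3) * (D * ℓ))) :=
          mul_le_mul_of_nonneg_right h8 (Real.exp_nonneg _)
      _ ≤ Real.exp (Real.log n) := by
          rw [← Real.exp_add]
          apply Real.exp_le_exp.2
          push_cast
          linarith
      _ = n := Real.exp_log (by exact_mod_cast (by omega : 0 < n))
  have hk4 : 1 ≤ κ ^ 4 := one_le_pow₀ hκ1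
  have h2L : 2 * L ≤ n := by
    have : (2 * L : ℝ) ≤ n := by nlinarith
    exact_mod_cast this
  have hm1 : 1 ≤ n / (2 * L) := (Nat.one_le_div_iff (by omega)).2 h2L
  have hlt := Nat.lt_div_mul_add (a := n) (show 0 < 2 * L by omega)
  have h4L : n ≤ 4 * L * (n / (2 * L)) := by nlinarith
  refine ⟨n / (2 * L), L, hm1, hL1, Nat.mul_div_le n (2 * L), h4L, ?_, ?_⟩
  · have h4' : (n : ℝ) ≤ 4 * L * ((n / (2 * L) : ℕ) : ℝ) := by exact_mod_cast h4L
    have : κ ^ 4 + r ≤ ((n / (2 * L) : ℕ) : ℝ) :=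
      le_of_mul_le_mul_left (h4.trans h4') (by positivity)
    rw [hκv]
    linarith
  · rw [← hYpow r, ← mul_pow]
    exact pow_le_pow_left₀ (by linarith) hYL r

/-- Every increasing invariant function has influence at least
`(log n) ^ (r / (r - 1))` times its variance, uniformly in `p`. -/
theorem GoodFun.influence_lower {f : (Edge n r → Bool) → ℝ} (hf : GoodFun f) {p : ℝ}
    (h0 : 0 < p) (h1 : p < 1) (hr : 2 ≤ r) (hn : 2 ≤ n) :
    Ex p f * (1 - Ex p f) * Real.log n ^ ((r : ℝ) / ((r : ℝ) - 1))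
      ≤ influenceConst r * ∑ e, Ex p (der e f) := by
  have hpq : 0 < p * (1 - p) := by nlinarith
  have hJI := total_influence h0 h1 f hf.der_01
  rw [← variance_eq h0 h1 hf]
  obtain ⟨hℓ1, hℓ2⟩ := log_sq_bound h0 h1
  have hI0 : 0 ≤ ∑ e, Ex p (der e f) := sum_nonneg fun e _ => Ex_nonneg h0.le h1.le fun x => by
    rcases hf.der_01 e x with h | h <;> simp [h]
  have hVJ : ∑ S : Finset (Edge n r) with S.Nonempty, coef p f S ^ 2
      ≤ ∑ S : Finset (Edge n r), (S.card : ℝ) * coef p f S ^ 2 := by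
    refine (sum_le_sum fun S hS => le_mul_of_one_le_left (sq_nonneg (coef p f S))
      (show (1 : ℝ) ≤ S.card by exact_mod_cast (mem_filter.1 hS).2.card_pos)).trans ?_
    exact sum_le_sum_of_subset_of_nonneg (subset_univ _) fun _ _ _ => by positivity
  have hlog0 : 0 ≤ Real.log n := Real.log_natCast_nonneg n
  have hr' : (2 : ℝ) ≤ r := by exact_mod_cast hr
  have hV0 : 0 ≤ ∑ S : Finset (Edge n r) with S.Nonempty, coef p f S ^ 2 :=
    sum_nonneg fun _ _ => sq_nonneg _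
  have hmain : ∀ m L : ℕ, 1 ≤ m → 1 ≤ L → 2 * L * m ≤ n → n ≤ 4 * L * m →
      (32 * (L : ℝ) ^ (r + 1) * (16 / (p * (1 - p))) ^ (L ^ (r - 1))) ^ 4 ≤ (m : ℝ) - r →
      (L : ℝ) ^ r * ∑ S : Finset (Edge n r) with S.Nonempty, coef p f S ^ 2
        ≤ (2 * r + 1) * ∑ S : Finset (Edge n r), (S.card : ℝ) * coef p f S ^ 2 :=
    fun m L hm hL h2 h4 hb => hf.var_le h0 h1 hr hm hL h2 h4 rfl hb
  have hpar := exists_params hr hn h0 h1
  generalize ∑ S : Finset (Edge n r), (S.card : ℝ) * coef p f S ^ 2 = J at hJI hVJ hmain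
  generalize ∑ S : Finset (Edge n r) with S.Nonempty, coef p f S ^ 2 = V at hVJ hV0 hmain ⊢
  generalize ∑ e, Ex p (der e f) = I at hJI hI0 ⊢
  generalize Real.log (16 / (p * (1 - p))) = ℓ at hℓ1 hℓ2 hpar
  have ha0 : 0 ≤ (r : ℝ) / ((r : ℝ) - 1) := div_nonneg (by linarith) (by linarith)
  have ha2 : (r : ℝ) / ((r : ℝ) - 1) ≤ 2 := by rw [div_le_iff₀ (by linarith)]; linarith
  have hcl : 1 ≤ (4 * (r : ℝ) + 14) * ℓ := by nlinarith
  have hfin : ∀ k : ℝ, 0 ≤ k → k ≤ (2 * r + 1) * 2 ^ r →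
      V * Real.log n ^ ((r : ℝ) / ((r : ℝ) - 1)) ≤ k * ((4 * r + 14) * ℓ) ^ 2 * J →
      V * Real.log n ^ ((r : ℝ) / ((r : ℝ) - 1)) ≤ influenceConst r * I := by
    intro k hk hk' h
    refine h.trans ?_
    rw [hJI]
    calc k * ((4 * (r : ℝ) + 14) * ℓ) ^ 2 * (p * (1 - p) * I)
        = k * (4 * (r : ℝ) + 14) ^ 2 * I * (p * (1 - p) * ℓ ^ 2) := by ring
      _ ≤ ((2 * r + 1) * 2 ^ r) * (4 * (r : ℝ) + 14) ^ 2 * I * 64 := by gcongr
      _ = _ := by unfold influenceConst; ring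
  have hexp : ((4 * (r : ℝ) + 14) * ℓ) ^ ((r : ℝ) / ((r : ℝ) - 1))
      ≤ ((4 * (r : ℝ) + 14) * ℓ) ^ 2 := by
    rw [← Real.rpow_two]; exact Real.rpow_le_rpow_of_exponent_le hcl ha2
  rcases lt_or_ge (Real.log n / ((4 * (r : ℝ) + 14) * ℓ)) 1 with hsmall | hlarge
  · have hle : Real.log n ≤ (4 * (r : ℝ) + 14) * ℓ := by
      rw [div_lt_one (by linarith)] at hsmall; exact hsmall.le
    refine hfin 1 zero_le_one ?_ ?_
    · nlinarith [one_le_pow₀ (show (1 : ℝ) ≤ 2 by norm_num) (n := r)]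
    · calc V * Real.log n ^ ((r : ℝ) / ((r : ℝ) - 1))
          ≤ V * ((4 * (r : ℝ) + 14) * ℓ) ^ 2 :=
            mul_le_mul_of_nonneg_left ((Real.rpow_le_rpow hlog0 hle ha0).trans hexp) hV0
        _ = 1 * ((4 * (r : ℝ) + 14) * ℓ) ^ 2 * V := by ring
        _ ≤ _ := mul_le_mul_of_nonneg_left hVJ (by positivity)
  · obtain ⟨m, L, hm1, hL1, h2, h4, hb, hX⟩ := hpar hlarge
    refine hfin ((2 * r + 1) * 2 ^ r) (by positivity) le_rfl ?_
    have hM := hmain m L hm1 hL1 h2 h4 hb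
    rw [Real.div_rpow hlog0 (by linarith), div_le_iff₀ (Real.rpow_pos_of_pos (by linarith) _)] at hX
    calc V * Real.log n ^ ((r : ℝ) / ((r : ℝ) - 1))
        ≤ V * (2 ^ r * (L : ℝ) ^ r * ((4 * (r : ℝ) + 14) * ℓ) ^ 2) :=
          mul_le_mul_of_nonneg_left (hX.trans (by gcongr)) hV0
      _ = 2 ^ r * ((4 * (r : ℝ) + 14) * ℓ) ^ 2 * ((L : ℝ) ^ r * V) := by ring
      _ ≤ 2 ^ r * ((4 * (r : ℝ) + 14) * ℓ) ^ 2 * ((2 * r + 1) * J) :=
          mul_le_mul_of_nonneg_left hM (by positivity)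
      _ = _ := by ring

theorem hasDerivAt_wt (b : Bool) (p : ℝ) :
    HasDerivAt (fun q : ℝ => wt q b) (if b then 1 else -1) p := by
  cases b
  · have h : (fun q : ℝ => wt q false) = fun q => 1 - q := by funext q; simp [wt]
    rw [h]; simp only [Bool.false_eq_true, if_false]; exact (hasDerivAt_id' p).const_sub 1
  · have h : (fun q : ℝ => wt q true) = fun q => q := by funext q; simp [wt]
    rw [h]; simp only [if_true]; exact hasDerivAt_id' p

/-- The Margulis-Russo formula. -/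
theorem russo {p : ℝ} (h0 : 0 < p) (h1 : p < 1) (f : (Edge n r → Bool) → ℝ) :
    HasDerivAt (fun q => Ex q f) (∑ e, Ex p (der e f)) p := by
  have hs := sqrt_pq_pos h0 h1
  have hsq := sq_sqrt_pq h0 h1
  have hd : HasDerivAt (fun q => Ex q f)
      (∑ x : Edge n r → Bool, (∑ e, (∏ j ∈ univ.erase e, wt p (x j)) •
        (if x e then (1 : ℝ) else -1)) * f x) p := by
    unfold Ex mass
    refine HasDerivAt.fun_sum fun x _ => HasDerivAt.mul_const ?_ (f x)
    exact HasDerivAt.fun_finsetProd fun e _ => hasDerivAt_wt (x e) p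
  refine hd.congr_deriv ?_
  simp only [Finset.sum_mul]
  rw [sum_comm]
  refine sum_congr rfl fun e _ => ?_
  have hc : Ex p (der e f) = coef p f {e} / Real.sqrt (p * (1 - p)) := by
    have := coef_insert h0 h1 f (notMem_empty e)
    rw [insert_empty_eq] at this
    rw [this, mul_div_cancel_left₀ _ hs.ne']
    simp [coef, chi_empty]
  rw [hc, coef]
  unfold Ex
  rw [sum_div]
  refine sum_congr rfl fun x _ => ?_
  rw [mass, ← mul_prod_erase univ _ (mem_univ e)]
  simp only [chi, prod_singleton, smul_eq_mul]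
  cases x e <;> simp [wt, ch] <;> field_simp <;> rw [hsq] <;> ring

theorem continuous_Ex (f : (Edge n r → Bool) → ℝ) : Continuous fun q => Ex q f := by
  unfold Ex mass
  refine continuous_finsetSum _ fun x _ => Continuous.mul ?_ continuous_const
  exact continuous_finsetProd _ fun e _ =>
    continuous_iff_continuousAt.2 fun q => (hasDerivAt_wt (x e) q).continuousAt

theorem Ex_one (f : (Edge n r → Bool) → ℝ) : Ex 1 f = f fun _ => true := by
  unfold Ex mass
  rw [sum_eq_single (fun _ => true)]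
  · simp [wt]
  · intro x _ hx
    obtain ⟨e, he⟩ := Function.ne_iff.1 hx
    have : wt 1 (x e) = 0 := by simp_all [wt]
    rw [prod_eq_zero (f := fun e => wt 1 (x e)) (mem_univ e) this, zero_mul]
  · simp

theorem monotone_Ex {f : (Edge n r → Bool) → ℝ} (hf : GoodFun f) :
    MonotoneOn (fun q => Ex q f) (Set.Icc 0 1) := by
  refine monotoneOn_of_deriv_nonneg (convex_Icc 0 1) (continuous_Ex f).continuousOn ?_ ?_ <;>
    rw [interior_Icc]
  · exact fun q hq => (russo hq.1 hq.2 f).differentiableAt.differentiableWithinAt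
  · intro q hq
    rw [(russo hq.1 hq.2 f).deriv]
    exact sum_nonneg fun e _ => Ex_nonneg hq.1.le hq.2.le fun x => by
      rcases hf.der_01 e x with h | h <;> simp [h]

/-- The threshold width bound, with an explicit constant. -/
theorem width_le {P : Set (Edge n r → Bool)} (hr : 2 ≤ r) (hn : r ≤ n) (hne : P.Nonempty)
    (hmono : IncreasingProp P) (hinv : InvariantProp P) {ε : ℝ} (hε : 0 < ε) (hε2 : ε < 1 / 2) :
    pThreshold P (1 - ε) - pThreshold P ε
      ≤ 2 * influenceConst r / ε * Real.log n ^ (-((r : ℝ) / ((r : ℝ) - 1))) := by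
  set f := ind P with hfdef
  have hf : GoodFun f := goodFun_ind hmono hinv
  set A : ℝ → Set ℝ := fun a => {p : ℝ | p ∈ Set.Icc 0 1 ∧ a ≤ prob p P} with hA
  have hbdd : ∀ a, BddBelow (A a) := fun a => ⟨0, fun x hx => hx.1.1⟩
  have hone : ∀ a ≤ 1, (1 : ℝ) ∈ A a := by
    intro a ha
    refine ⟨by simp, ha.trans (le_of_eq ?_)⟩
    obtain ⟨x, hx⟩ := hne
    have : (fun _ => true) ∈ P := hmono x _ (fun _ _ => rfl) hx
    rw [prob_eq_Ex, Ex_one]
    simp [ind, this]
  set p₀ := pThreshold P ε with hp₀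
  set p₁ := pThreshold P (1 - ε) with hp₁
  have h00 : 0 ≤ p₀ := le_csInf ⟨1, hone ε (by linarith)⟩ fun x hx => hx.1.1
  have h11 : p₁ ≤ 1 := csInf_le (hbdd _) (hone _ (by linarith))
  have hn2 : 2 ≤ n := hr.trans hn
  have hlog : 0 < Real.log n := Real.log_pos (by exact_mod_cast hn2)
  set a : ℝ := (r : ℝ) / ((r : ℝ) - 1) with ha
  have hla : 0 < Real.log n ^ a := Real.rpow_pos_of_pos hlog a
  have hK : 0 < influenceConst r := by unfold influenceConst; positivity
  have hrhs : 0 ≤ 2 * influenceConst r / ε * Real.log n ^ (-a) :=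
    mul_nonneg (by positivity) (Real.rpow_nonneg hlog.le _)
  rcases le_or_gt p₁ p₀ with hle | hlt
  · linarith
  set slope := ε / 2 * Real.log n ^ a / influenceConst r with hslope
  have hder : ∀ q ∈ Set.Ioo p₀ p₁, slope ≤ deriv (fun q => Ex q f) q := by
    intro q hq
    have hq0 : 0 < q := lt_of_le_of_lt h00 hq.1
    have hq1 : q < 1 := lt_of_lt_of_le hq.2 h11
    have hupper : Ex q f ≤ 1 - ε := by
      by_contra hc
      have : p₁ ≤ q := csInf_le (hbdd _) ⟨⟨hq0.le, hq1.le⟩, by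
        rw [prob_eq_Ex]; exact (not_le.1 hc).le⟩
      linarith [hq.2]
    have hlower : ε ≤ Ex q f := by
      obtain ⟨q', hq', hq'q⟩ := exists_lt_of_csInf_lt ⟨1, hone ε (by linarith)⟩ hq.1
      exact hq'.2.trans ((prob_eq_Ex q' P).le.trans
        (monotone_Ex hf hq'.1 ⟨hq0.le, hq1.le⟩ hq'q.le))
    have hvar : ε / 2 ≤ Ex q f * (1 - Ex q f) := by
      nlinarith [mul_nonneg (sub_nonneg.2 hlower) (sub_nonneg.2 hupper)]
    rw [(russo hq0 hq1 f).deriv, hslope, div_le_iff₀ hK]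
    calc ε / 2 * Real.log n ^ a ≤ Ex q f * (1 - Ex q f) * Real.log n ^ a :=
          mul_le_mul_of_nonneg_right hvar hla.le
      _ ≤ influenceConst r * ∑ e, Ex q (der e f) := hf.influence_lower hq0 hq1 hr hn2
      _ = _ := mul_comm _ _
  have hmvt : slope * (p₁ - p₀) ≤ Ex p₁ f - Ex p₀ f := by
    refine Convex.mul_sub_le_image_sub_of_le_deriv (convex_Icc p₀ p₁)
      (continuous_Ex f).continuousOn ?_ ?_ p₀ (Set.left_mem_Icc.2 hlt.le) p₁
      (Set.right_mem_Icc.2 hlt.le) hlt.le <;> rw [interior_Icc]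
    · exact fun q hq => (russo (lt_of_le_of_lt h00 hq.1) (lt_of_lt_of_le hq.2 h11)
        f).differentiableAt.differentiableWithinAt
    · exact hder
  have hb : ∀ q, 0 ≤ q → q ≤ 1 → 0 ≤ Ex q f ∧ Ex q f ≤ 1 := by
    intro q hq0 hq1
    refine ⟨Ex_nonneg hq0 hq1 fun x => ?_, (Ex_mono hq0 hq1 fun x => ?_).trans_eq (Ex_const q 1)⟩ <;>
      rcases hf.zero_one x with h | h <;> simp [h]
  have h1' := (hb p₁ (le_trans h00 hlt.le) h11).2
  have h0' := (hb p₀ h00 (le_trans hlt.le h11)).1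
  have hspos : 0 < slope := by positivity
  calc p₁ - p₀ ≤ 1 / slope := by rw [le_div_iff₀ hspos]; linarith
    _ = 2 * influenceConst r / ε * Real.log n ^ (-a) := by
      rw [hslope, Real.rpow_neg hlog.le]
      field_simp

end Vale.Agent.P063
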